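import Crest.Agent.N255.Dr.Om

/-!
# Row 255, vertex count (helper7): multiplicative filtrations
-/

set_option autoImplicit false

namespace N255.Vx

open Finset N255.Dr

/-- a multiplicative filtration indexed by the integers -/
structure Fil (B : Type*) [Ring B] where
  ge : ℤ → AddSubgroup B
  anti : ∀ {s t : ℤ}, s ≤ t → ge t ≤ ge s
  one : (1 : B) ∈ ge 0
  mul : ∀ {s t : ℤ} {a b : B}, a ∈ ge s → b ∈ ge t → a * b ∈ ge (s + t)

namespace Fil

variable {B : Type*} [Ring B] (F : Fil B)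

theorem mono {s t : ℤ} {a : B} (h : a ∈ F.ge t) (hst : s ≤ t) : a ∈ F.ge s := F.anti hst h

theorem mul' {s t r : ℤ} {a b : B} (ha : a ∈ F.ge s) (hb : b ∈ F.ge t) (h : r ≤ s + t) :
    a * b ∈ F.ge r := F.mono (F.mul ha hb) h

theorem natCast (n : ℕ) : (n : B) ∈ F.ge 0 := by
  simpa using (F.ge 0).nsmul_mem F.one n

theorem pow {s : ℤ} {a : B} (ha : a ∈ F.ge s) (n : ℕ) : a ^ n ∈ F.ge (n * s) := by
  induction n with
  | zero => simpa using F.one
  | succ n ih => rw [pow_succ]; exact F.mul' ih ha (by push_cast; linarith)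

/-- pull back of a filtration -/
def comap {C : Type*} [Ring C] (f : C →+* B) : Fil C where
  ge t := (F.ge t).comap f.toAddMonoidHom
  anti h _ ha := F.anti h ha
  one := by simpa [AddSubgroup.mem_comap] using F.one
  mul ha hb := by
    simp only [AddSubgroup.mem_comap, RingHom.toAddMonoidHom_eq_coe, AddMonoidHom.coe_coe,
      map_mul] at *
    exact F.mul ha hb

theorem mem_comap {C : Type*} [Ring C] (f : C →+* B) {t : ℤ} {a : C} :
    a ∈ (F.comap f).ge t ↔ f a ∈ F.ge t := Iff.rfl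

/-- `a` and `b` have weight `≥ t` and the same leading part -/
structure Cg (t : ℤ) (a b : B) : Prop where
  rt : b ∈ F.ge t
  sub : a - b ∈ F.ge (t + 1)

variable {F}

theorem Cg.lt {t : ℤ} {a b : B} (h : F.Cg t a b) : a ∈ F.ge t := by
  have := add_mem (F.mono h.sub (by omega : t ≤ t + 1)) h.rt
  simpa using this

theorem Cg.refl {t : ℤ} {a : B} (h : a ∈ F.ge t) : F.Cg t a a := ⟨h, by simp⟩

theorem Cg.mul {s t : ℤ} {a b a' b' : B} (h : F.Cg s a a') (h' : F.Cg t b b') :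
    F.Cg (s + t) (a * b) (a' * b') := by
  refine ⟨F.mul h.rt h'.rt, ?_⟩
  have : a * b - a' * b' = (a - a') * b + a' * (b - b') := by noncomm_ring
  rw [this]
  exact add_mem (F.mul' h.sub h'.lt (by omega)) (F.mul' h.rt h'.sub (by omega))

theorem Cg.of_eq {s t : ℤ} {a b : B} (h : F.Cg s a b) (e : s = t) : F.Cg t a b := e ▸ h

theorem Cg.trans {t : ℤ} {a b c : B} (h : F.Cg t a b) (h' : F.Cg t b c) : F.Cg t a c :=
  ⟨h'.rt, by simpa using add_mem h.sub h'.sub⟩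

theorem Cg.zsmul {t : ℤ} {a b : B} (h : F.Cg t a b) (n : ℤ) : F.Cg t (n • a) (n • b) :=
  ⟨zsmul_mem h.rt n, by rw [← smul_sub]; exact zsmul_mem h.sub n⟩

theorem Cg.one : F.Cg 0 1 1 := Cg.refl F.one

theorem Cg.pow {t : ℤ} {a b : B} (h : F.Cg t a b) (n : ℕ) : F.Cg (n * t) (a ^ n) (b ^ n) := by
  induction n with
  | zero => simpa using Cg.one
  | succ n ih => rw [pow_succ, pow_succ]; exact (ih.mul h).of_eq (by push_cast; ring)

end Fil

section Comm

variable {B : Type*} [CommRing B] {F : Fil B}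

theorem Fil.Cg.prod {ι : Type*} (s : Finset ι) {t : ι → ℤ} {a b : ι → B}
    (h : ∀ i ∈ s, F.Cg (t i) (a i) (b i)) : F.Cg (∑ i ∈ s, t i) (∏ i ∈ s, a i) (∏ i ∈ s, b i) := by
  classical
  induction s using Finset.induction_on with
  | empty => simpa using Fil.Cg.one
  | insert i s hi ih =>
    rw [sum_insert hi, prod_insert hi, prod_insert hi]
    exact (h i (mem_insert_self _ _)).mul (ih fun j hj => h j (mem_insert_of_mem hj))

theorem Fil.prod {ι : Type*} (s : Finset ι) {t : ι → ℤ} {a : ι → B}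
    (h : ∀ i ∈ s, a i ∈ F.ge (t i)) : ∏ i ∈ s, a i ∈ F.ge (∑ i ∈ s, t i) :=
  (Fil.Cg.prod s fun i hi => Fil.Cg.refl (h i hi)).lt

theorem Fil.tx_mem (p : ℕ) {x : B} (hx : x ∈ F.ge 0) : tx p x ∈ F.ge 0 :=
  sum_mem fun n _ => F.mul' (F.natCast _) (F.pow hx n) (by simp)

theorem Fil.tx_sub {p : ℕ} [Fact p.Prime] (hp : (p : B) = 0) {l : ℤ} (hl : 0 ≤ l) {x : B}
    (hx : x ∈ F.ge l) : tx p x - 1 - x ∈ F.ge (2 * l) := by
  have : tx p x - 1 - x = x ^ 2 * ∑ n ∈ range (p - 2), (ic p (n + 2) : B) * x ^ n := by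
    rw [tx_eq hp]; ring
  rw [this]
  refine F.mul' (F.pow hx 2) (t := 0) (sum_mem fun n _ => F.mul' (F.natCast _) (F.pow hx n) ?_)
    (by simp)
  positivity

/-- the exponential of a sum of terms of weight `≥ l` -/
theorem Fil.prod_tx {p : ℕ} [Fact p.Prime] (hp : (p : B) = 0) {l : ℤ} (hl : 0 ≤ l) {ι : Type*}
    (s : Finset ι) {x : ι → B} (hx : ∀ i ∈ s, x i ∈ F.ge l) :
    ∏ i ∈ s, tx p (x i) - 1 - ∑ i ∈ s, x i ∈ F.ge (2 * l) := by
  classical
  induction s using Finset.induction_on with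
  | empty => simp
  | insert i s hi ih =>
    have ih' := ih fun j hj => hx j (mem_insert_of_mem hj)
    have hi' := hx i (mem_insert_self _ _)
    have h1 := Fil.tx_sub hp hl hi'
    have hs : ∑ j ∈ s, x j ∈ F.ge l := sum_mem fun j hj => hx j (mem_insert_of_mem hj)
    have h2 : ∏ j ∈ s, tx p (x j) - 1 ∈ F.ge l := by
      simpa using add_mem (F.mono ih' (by omega : l ≤ 2 * l)) hs
    have h3 : tx p (x i) - 1 ∈ F.ge l := by
      simpa using add_mem (F.mono h1 (by omega : l ≤ 2 * l)) hi'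
    rw [prod_insert hi, sum_insert hi]
    have : tx p (x i) * ∏ j ∈ s, tx p (x j) - 1 - (x i + ∑ j ∈ s, x j) =
        (tx p (x i) - 1) * (∏ j ∈ s, tx p (x j) - 1) + (tx p (x i) - 1 - x i) +
          (∏ j ∈ s, tx p (x j) - 1 - ∑ j ∈ s, x j) := by ring
    rw [this]
    exact add_mem (add_mem (F.mul' h3 h2 (by omega)) h1) ih'

end Comm

/-- the right hand side of the vertex count -/
theorem rhs_abs {B M : Type*} [Ring B] [AddCommGroup M] (W J : Fil B) (I : B →+ M) {T l θ : ℤ}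
    {w : Fin 3 → ℤ} {η x : Fin 3 → B} {G E ψ Θ Θ0 : B}
    (hW : ∀ a ∈ W.ge (T + 1), I a = 0) (hJ : ∀ a ∈ J.ge 0, I a = 0)
    (hη : ∀ i, W.Cg (w i) (η i) (x i)) (hηJ : ∀ i, η i ∈ J.ge 0) (hG : G ∈ W.ge 0)
    (hGJ : G ∈ J.ge 0) (hΘ : W.Cg θ Θ Θ0) (hΘJ : Θ ∈ J.ge 0) (hψ : ψ ∈ W.ge l)
    (hE : E - 1 - ψ ∈ W.ge (l + 1)) (hT : T = w 0 + w 1 + w 2 + θ + l) :
    I (η 0 * η 1 * η 2 * Θ * (G * E)) = I (x 0 * x 1 * x 2 * Θ0 * (G * ψ)) := by
  have h1 := (((hη 0).mul (hη 1)).mul (hη 2)).mul hΘ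
  have h2 := h1.mul (Fil.Cg.refl (W.mul hG hψ))
  have e1 := hW _ (W.mono h2.sub (by omega))
  have e2 := hW _ (W.mul' h1.lt (W.mul hG hE) (by omega))
  have e3 := hJ _ (J.mul' (J.mul (J.mul (J.mul (hηJ 0) (hηJ 1)) (hηJ 2)) hΘJ) hGJ (by omega))
  have : η 0 * η 1 * η 2 * Θ * (G * E) = η 0 * η 1 * η 2 * Θ * G +
      η 0 * η 1 * η 2 * Θ * (G * (E - 1 - ψ)) + (η 0 * η 1 * η 2 * Θ * (G * ψ) -
        x 0 * x 1 * x 2 * Θ0 * (G * ψ)) + x 0 * x 1 * x 2 * Θ0 * (G * ψ) := by noncomm_ring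
  rw [this, map_add, map_add, map_add, e1, e2, e3]
  simp

/-- the lexicographic filtration of two filtrations -/
def Lx {B : Type*} [Ring B] (F J : Fil B) (s t : ℤ) (a : B) : Prop :=
  ∃ b, b ∈ F.ge s ∧ b ∈ J.ge t ∧ a - b ∈ F.ge (s + 1)

theorem Lx.mul {B : Type*} [Ring B] {F J : Fil B} {s t s' t' : ℤ} {a a' : B} (h : Lx F J s t a)
    (h' : Lx F J s' t' a') : Lx F J (s + s') (t + t') (a * a') := by
  obtain ⟨b, h1, h2, h3⟩ := h
  obtain ⟨b', h1', h2', h3'⟩ := h'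
  exact ⟨b * b', F.mul h1 h1', J.mul h2 h2', ((Fil.Cg.mk h1 h3).mul ⟨h1', h3'⟩).sub⟩

theorem Lx.eq_zero {B M : Type*} [Ring B] [AddCommGroup M] {F J : Fil B} (I : B →+ M) {s t : ℤ}
    {a : B} (h : Lx F J s t a) (hF : ∀ a ∈ F.ge (s + 1), I a = 0) (hJ : ∀ a ∈ J.ge t, I a = 0) :
    I a = 0 := by
  obtain ⟨b, -, h2, h3⟩ := h
  have := hF _ h3
  rw [map_sub, hJ _ h2] at this
  simpa using this

/-! ### ring homomorphisms out of the de Rham algebra -/

section Hom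

variable {p : ℕ} {K : Type} [CommRing K] {σ : Type} [Fintype σ] [DecidableEq σ]
  {B : Type*} [Ring B] {F : Fil B}

theorem cg_e (Φ Ψ : Om p K σ →+* B) {wd : σ → ℤ} (S : Finset σ)
    (hd : ∀ i ∈ S, F.Cg (wd i) (Φ (Om.dz i)) (Ψ (Om.dz i))) :
    F.Cg (∑ i ∈ S, wd i) (Φ (Om.e S)) (Ψ (Om.e S)) := by
  induction S using Finset.induction_on with
  | empty => simpa using Fil.Cg.one
  | insert i S hi ih =>
    rw [Om.e_insert hi, sum_insert hi, map_zsmul, map_zsmul, map_mul, map_mul]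
    exact ((hd i (mem_insert_self _ _)).mul (ih fun j hj => hd j (mem_insert_of_mem hj))).zsmul _

omit [DecidableEq σ] in
theorem cg_zm (Φ Ψ : Om p K σ →+* B) {wz : σ → ℤ} (a : σ → ℕ)
    (hz : ∀ i, a i ≠ 0 → F.Cg (wz i) (Φ (Om.fn (O.z i))) (Ψ (Om.fn (O.z i)))) :
    F.Cg (∑ i, a i * wz i) (Φ (Om.fn (O.zm a))) (Ψ (Om.fn (O.zm a))) := by
  classical
  unfold O.zm
  have : ∀ s : Finset σ, F.Cg (∑ i ∈ s, a i * wz i) (Φ (Om.fn (∏ i ∈ s, O.z i ^ a i)))
      (Ψ (Om.fn (∏ i ∈ s, O.z i ^ a i))) := fun s => by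
    induction s using Finset.induction_on with
    | empty => simpa using Fil.Cg.one
    | insert i s hi ih =>
      rw [sum_insert hi, prod_insert hi]
      simp only [map_mul, map_pow]
      refine Fil.Cg.mul ?_ (by simpa only [map_mul, map_pow] using ih)
      by_cases h : a i = 0
      · simpa [h] using Fil.Cg.one
      · exact (hz i h).pow _
  exact this univ

end Hom

end N255.Vx
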