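import Crest.Agent.N255.Vx.Main
import Crest.Agent.N255.Core.CG

/-! # Row 255 (helper7): the algebraic core, unconditionally -/

namespace N255.Vx

open N255.Core

theorem coreG_holds : CoreG := coreG_of_vertex vertexG_holds

theorem coreS_holds : CoreS := coreS_of_vertex vertexG_holds

end N255.Vx
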