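import Crest.Agent.N255.Core.Stm
import Crest.Agent.N255.Dr.Lu

/-! Row 255 (helper61): the Gaussian coefficient and two small coefficient lemmas. -/

set_option autoImplicit false

namespace N255.Vx

open N255.Dr N255.Dr.O N255.Core LaurentPolynomial Finset Function

section
variable {p : ℕ} {K : Type} [CommRing K] {V : Type} [Fintype V] [DecidableEq V]

theorem gc_cf_zm_mul (r a : V → ℕ) (hr : ∀ v, r v < p) (g : O p K V) :
    cf r (zm a * g) = if ∀ v, a v ≤ r v then cf (r - a) g else 0 := by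
  induction g using induction_zm with
  | h0 => simp
  | hadd f g hf hg => rw [mul_add, map_add, hf, hg]; split_ifs <;> simp
  | hm c b hb =>
    rw [mul_smul_comm, ← zm_add, map_smul, cf_zm, map_smul, cf_zm]
    by_cases h : ∀ v, a v ≤ r v
    · rw [if_pos h]
      congr 1
      refine if_congr ⟨fun h' => ⟨?_, fun i => lt_of_le_of_lt (Nat.sub_le _ _) (hr i)⟩,
        fun h' => ⟨?_, hr⟩⟩ rfl rfl
      · rw [h'.1]; funext i; simp
      · rw [← h'.1]; funext i; have := h i; simp only [Pi.add_apply, Pi.sub_apply]; omega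
    · rw [if_neg h, if_neg, smul_zero]
      rintro ⟨h', -⟩
      exact h (by rw [h']; exact fun i => Nat.le_add_right _ _)

omit [DecidableEq V] in
theorem gc_zm_sum {B : Type} (s : Finset B) (a : B → V → ℕ) :
    (zm (∑ b ∈ s, a b) : O p K V) = ∏ b ∈ s, zm (a b) := by
  classical
  induction s using Finset.induction_on with
  | empty => simp
  | insert b s hb ih => rw [sum_insert hb, prod_insert hb, zm_add, ih]

theorem cub_eq [Fact p.Prime] [Fact ((p : K) = 0)] {x y w : V} (hxy : x ≠ y) (hxw : x ≠ w)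
    (hyw : y ≠ w) (f : O p K V) :
    aug (pd x (pd y (pd w f))) = cf (Pi.single x 1 + Pi.single y 1 + Pi.single w 1) f := by
  rw [← cf_zero, cf_pd, cf_pd, cf_pd]
  simp [hxy.symm, hxw.symm, hyw.symm]

end

theorem ic_ne {p : ℕ} [Fact p.Prime] {n : ℕ} (hn : n < p) : (ic p n : ZMod p) ≠ 0 := by
  intro h
  have := ic_mul_fact (A := ZMod p) (ZMod.natCast_self p) hn
  rw [h, zero_mul] at this
  exact zero_ne_one this

theorem gc_T_sum {p : ℕ} {B : Type} (s : Finset B) (n : B → ℤ) :
    (T (∑ b ∈ s, n b) : Au p) = ∏ b ∈ s, T (n b) := by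
  classical
  induction s using Finset.induction_on with
  | empty => simp
  | insert b s hb ih => rw [sum_insert hb, prod_insert hb, T_add, ih]

theorem gc_coeff {p : ℕ} (a : ZMod p) (m k : ℤ) :
    (C a * T m : Au p).coeff k = if m = k then a else 0 := by
  rw [← single_eq_C_mul_T, AddMonoidAlgebra.coeff_single, Finsupp.single_apply]

theorem cf_gauss {p : ℕ} [Fact p.Prime] {V B : Type} [Fintype V] [DecidableEq V] [Fintype B]
    (yv mv : B → V) (hy : Injective yv) (hm : Injective mv) (hym : ∀ b b', yv b ≠ mv b')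
    (c : B → ZMod p) (r r' : V → ℕ) (hr : ∀ v, r v < p) (h1 : ∀ b, r' (yv b) = 0)
    (h2 : ∀ b, r' (mv b) + r (yv b) = r (mv b))
    (h3 : ∀ v, (∀ b, v ≠ yv b) → (∀ b, v ≠ mv b) → r' v = r v) (f : O p (ZMod p) V) :
    (cf r ((∏ b, tx p ((-T (-1) : Au p) • bc (Au p) (c b • (z (yv b) * z (mv b) : O p (ZMod p) V)))) *
        bc (Au p) f)).coeff (-∑ b, (r (yv b) : ℤ)) =
      (∏ b, (ic p (r (yv b)) : ZMod p) * (-c b) ^ r (yv b)) * cf r' f := by
  classical
  set A : (B → ℕ) → V → ℕ := fun n => ∑ b, (Pi.single (yv b) (n b) + Pi.single (mv b) (n b))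
    with hA
  have Ay : ∀ n b, A n (yv b) = n b := fun n b => by
    simp only [hA, Finset.sum_apply, Pi.add_apply]
    rw [Finset.sum_eq_single b]
    · simp [hym b b]
    · intro b' _ hb
      simp [hym b b', (hy.ne hb).symm]
    · simp
  have Am : ∀ n b, A n (mv b) = n b := fun n b => by
    simp only [hA, Finset.sum_apply, Pi.add_apply]
    rw [Finset.sum_eq_single b]
    · simp [(hym b b).symm]
    · intro b' _ hb
      simp [(hym b' b).symm, (hm.ne hb).symm]
    · simp
  have Ao : ∀ n v, (∀ b, v ≠ yv b) → (∀ b, v ≠ mv b) → A n v = 0 := fun n v a1 a2 => by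
    simp only [hA, Finset.sum_apply, Pi.add_apply]
    exact Finset.sum_eq_zero fun b _ => by simp [a1 b, a2 b]
  have term : ∀ (b : B) (k : ℕ), ((ic p k : O p (Au p) V) *
      ((-T (-1) : Au p) • bc (Au p) (c b • (z (yv b) * z (mv b) : O p (ZMod p) V))) ^ k) =
      (C ((ic p k : ZMod p) * (-c b) ^ k) * T (-(k : ℤ)) : Au p) •
        zm (Pi.single (yv b) k + Pi.single (mv b) k) := fun b k => by
    rw [map_smul, map_mul, bc_z, bc_z, ← algebraMap_smul (Au p) (c b), smul_smul, smul_pow,
      zm_add, zm_single, zm_single, mul_pow (z (yv b)), ← nsmul_eq_mul,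
      ← Nat.cast_smul_eq_nsmul (Au p), smul_smul]
    congr 1
    rw [← C_eq_algebraMap, map_mul, map_pow, map_neg, map_natCast, mul_assoc]
    congr 1
    have : (T (-(k : ℤ)) : Au p) = T (-1) ^ k := by rw [T_pow]; simp
    rw [this, ← mul_pow]
    congr 1
    ring
  have key : (∏ b, tx p ((-T (-1) : Au p) •
      bc (Au p) (c b • (z (yv b) * z (mv b) : O p (ZMod p) V)))) =
      ∑ n ∈ Fintype.piFinset (fun _ : B => range p),
        (C (∏ b, (ic p (n b) : ZMod p) * (-c b) ^ n b) * T (-∑ b, (n b : ℤ)) : Au p) •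
          zm (A n) := by
    simp only [tx]
    rw [Finset.prod_univ_sum]
    refine Finset.sum_congr rfl fun n _ => ?_
    simp only [term]
    rw [Finset.prod_smul, hA, gc_zm_sum, Finset.prod_mul_distrib, map_prod,
      ← Finset.sum_neg_distrib, gc_T_sum]
  rw [key, Finset.sum_mul, map_sum, AddMonoidAlgebra.coeff_sum, Finsupp.finsetSum_apply,
    Finset.sum_eq_single (fun b => r (yv b))]
  · have hle : ∀ v, A (fun b => r (yv b)) v ≤ r v := fun v => by
      by_cases a1 : ∃ b, v = yv b
      · obtain ⟨b, rfl⟩ := a1; exact (Ay _ b).le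
      by_cases a2 : ∃ b, v = mv b
      · obtain ⟨b, rfl⟩ := a2
        rw [Am]; have := h2 b; omega
      push Not at a1 a2
      rw [Ao _ v a1 a2]; exact Nat.zero_le _
    have heq : r - A (fun b => r (yv b)) = r' := funext fun v => by
      rw [Pi.sub_apply]
      by_cases a1 : ∃ b, v = yv b
      · obtain ⟨b, rfl⟩ := a1; rw [Ay, h1]; simp
      by_cases a2 : ∃ b, v = mv b
      · obtain ⟨b, rfl⟩ := a2
        rw [Am]; have := h2 b; omega
      push Not at a1 a2
      rw [Ao _ v a1 a2, h3 v a1 a2]; simp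
    rw [smul_mul_assoc, map_smul, gc_cf_zm_mul _ _ hr, if_pos hle, heq, cf_bc, smul_eq_mul,
      ← C_eq_algebraMap, mul_right_comm, ← map_mul, gc_coeff, if_pos rfl]
  · intro n _ hn
    rw [smul_mul_assoc, map_smul, gc_cf_zm_mul _ _ hr]
    split_ifs with hle
    · rw [cf_bc, smul_eq_mul, ← C_eq_algebraMap, mul_right_comm, ← map_mul, gc_coeff, if_neg]
      intro he
      have he' : ∑ b, n b = ∑ b, r (yv b) := by exact_mod_cast neg_injective he
      have hb : ∀ b ∈ (univ : Finset B), n b ≤ r (yv b) := fun b _ => by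
        rw [← Ay n b]; exact hle _
      exact hn (funext fun b => (Finset.sum_eq_sum_iff_of_le hb).1 he' b (mem_univ b))
    · simp
  · intro h
    exact absurd (Fintype.mem_piFinset.2 fun b => mem_range.2 (hr _)) h

end N255.Vx
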