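import Crest.Agent.N255.Vx.Abs
import Crest.Agent.N255.Core.Stm

/-!
# Row 255, vertex count (helper7): monomial supports and weight filtrations
-/

set_option autoImplicit false
set_option linter.unusedSectionVars false

namespace N255.Vx

open Finset N255.Dr N255.Dr.O N255.Core LaurentPolynomial

variable {p : ℕ} [Fact p.Prime] {s : Type} [Fintype s] [DecidableEq s]

/-- the coefficient of a monomial form -/
noncomputable def cu (x : Ix s) : Om p (Au p) s →+ ZMod p where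
  toFun ω := (Om.co x.2.1 x.2.2 ω).coeff x.1
  map_zero' := by simp
  map_add' a b := by simp

omit [DecidableEq s] in
theorem cu_apply (x : Ix s) (ω : Om p (Au p) s) :
    cu x ω = (Om.co x.2.1 x.2.2 ω).coeff x.1 := rfl

omit [DecidableEq s] in
theorem cu_smul (x : Ix s) (c : ZMod p) (ω : Om p (Au p) s) : cu x (c • ω) = c * cu x ω := by
  rw [cu_apply, cu_apply, ← algebraMap_smul (Au p) c ω, map_smul, algebraMap_smul]
  simp

theorem cu_mu (x y : Ix s) :
    cu x (mu y : Om p (Au p) s) = if x = y ∧ ∀ i, x.2.1 i < p then 1 else 0 := by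
  obtain ⟨j, a, S⟩ := x
  obtain ⟨j', a', S'⟩ := y
  rw [cu_apply, mu, map_smul, Om.co_mon]
  by_cases h : (a = a' ∧ S = S') ∧ ∀ i, a i < p
  · rw [if_pos h]
    obtain ⟨⟨rfl, rfl⟩, h⟩ := h
    simp [eq_comm, h]
  · rw [if_neg h, if_neg]
    · simp
    · rintro ⟨h1, h2⟩
      simp only [Prod.mk.injEq] at h1
      exact h ⟨h1.2, h2⟩

/-- the forms supported on `P` -/
def Sb (p : ℕ) [Fact p.Prime] (P : Ix s → Prop) : AddSubgroup (Om p (Au p) s) where
  carrier := {ω | In P ω}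
  zero_mem' x hx := by simp at hx
  add_mem' {a b} ha hb x hx := by
    by_contra h
    apply hx
    have h1 : cu x a = 0 := by_contra fun h' => h (ha x h')
    have h2 : cu x b = 0 := by_contra fun h' => h (hb x h')
    change cu x (a + b) = 0
    rw [map_add, h1, h2, add_zero]
  neg_mem' {a} ha x hx := ha x fun h => hx (by
    change cu x (-a) = 0
    rw [map_neg, neg_eq_zero]; exact h)

theorem mem_Sb {P : Ix s → Prop} {ω : Om p (Au p) s} :
    ω ∈ Sb p P ↔ ∀ x, cu x ω ≠ 0 → P x := Iff.rfl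

theorem Sb_smul {P : Ix s → Prop} {ω : Om p (Au p) s} (h : ω ∈ Sb p P) (c : ZMod p) :
    c • ω ∈ Sb p P := fun x hx => h x fun h0 => hx (by
  change cu x (c • ω) = 0
  rw [cu_smul]; exact mul_eq_zero_of_right _ h0)

theorem mu_mem {P : Ix s → Prop} {x : Ix s} (h : P x) : (mu x : Om p (Au p) s) ∈ Sb p P :=
  mem_Sb.2 fun y hy => by
    rw [cu_mu] at hy
    split_ifs at hy with h'
    · exact h'.1 ▸ h
    · exact absurd rfl hy

theorem Sb_mono {P P' : Ix s → Prop} (h : ∀ x, (∀ i, x.2.1 i < p) → P x → P' x)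
    {ω : Om p (Au p) s} (hω : ω ∈ Sb p P) : ω ∈ Sb p P' := fun x hx =>
  h x (by_contra fun h' => hx (by rw [Om.co_of_not h']; simp)) (hω x hx)

theorem Sb_ind {P : Ix s → Prop} {Q : Om p (Au p) s → Prop} (h0 : Q 0)
    (hadd : ∀ a b, Q a → Q b → Q (a + b))
    (hm : ∀ (c : ZMod p) (x : Ix s), P x → (∀ i, x.2.1 i < p) → Q (c • mu x))
    {ω : Om p (Au p) s} (hω : ω ∈ Sb p P) : Q ω := by
  rw [← Om.sum_co ω]
  refine sum_induction _ Q hadd h0 fun a ha => sum_induction _ Q hadd h0 fun S _ => ?_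
  rw [← AddMonoidAlgebra.sum_coeff_single (Om.co a S ω), Finsupp.sum, sum_smul]
  refine sum_induction _ Q hadd h0 fun j hj => ?_
  have := hm ((Om.co a S ω).coeff j) (j, a, S) (hω (j, a, S) (Finsupp.mem_support_iff.1 hj))
    (mem_box.1 ha)
  rwa [mu, ← smul_assoc, smul_eq_C_mul, ← single_eq_C_mul_T] at this

theorem mu_mul (x y : Ix s) : (mu x : Om p (Au p) s) * mu y =
    sg x.2.2 y.2.2 • mu (x.1 + y.1, x.2.1 + y.2.1, x.2.2 ∪ y.2.2) := by
  rw [mu, mu, mu, smul_mul_smul_comm, Om.mon_mul, T_add, smul_comm]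

omit [Fact p.Prime] in
theorem wt_add (wu : ℤ) (wz wd : s → ℤ) (x y : Ix s) (h : Disjoint x.2.2 y.2.2) :
    wt wu wz wd (x.1 + y.1, x.2.1 + y.2.1, x.2.2 ∪ y.2.2) = wt wu wz wd x + wt wu wz wd y := by
  simp only [wt, sum_union h, Pi.add_apply, Nat.cast_add, add_mul, sum_add_distrib]
  ring

/-- the filtration of a weight -/
noncomputable def fil (p : ℕ) [Fact p.Prime] (wu : ℤ) (wz wd : s → ℤ) : Fil (Om p (Au p) s) where
  ge t := Sb p fun x => t ≤ wt wu wz wd x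
  anti h _ ha := Sb_mono (fun _ _ hx => h.trans hx) ha
  one := by
    have : (1 : Om p (Au p) s) = mu (0, 0, ∅) := by simp [mu]
    rw [this]
    exact mu_mem (by simp [wt])
  mul {s' t a b} ha hb := by
    refine Sb_ind (Q := fun a => a * b ∈ _) (by simp) (fun a a' h h' => ?_) (fun c x hx _ => ?_) ha
    · rw [add_mul]; exact add_mem h h'
    refine Sb_ind (Q := fun b => c • mu x * b ∈ _) (by simp) (fun a a' h h' => ?_)
      (fun c' y hy _ => ?_) hb
    · rw [mul_add]; exact add_mem h h'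
    rw [smul_mul_smul_comm, mu_mul]
    refine Sb_smul ?_ _
    by_cases h : Disjoint x.2.2 y.2.2
    · exact zsmul_mem (mu_mem (by rw [wt_add _ _ _ _ _ h]; omega)) _
    · rw [sg_of_not h, zero_smul]; exact zero_mem _

section

variable {wu : ℤ} {wz wd : s → ℤ}

theorem mem_fil {t : ℤ} {ω : Om p (Au p) s} :
    ω ∈ (fil p wu wz wd).ge t ↔ ω ∈ Sb p fun x => t ≤ wt wu wz wd x := Iff.rfl

theorem fil_smul {t : ℤ} {ω : Om p (Au p) s} (h : ω ∈ (fil p wu wz wd).ge t) (c : ZMod p) :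
    c • ω ∈ (fil p wu wz wd).ge t := Sb_smul h c

theorem cu_eq_zero {x : Ix s} {t : ℤ} (h : wt wu wz wd x < t) {ω : Om p (Au p) s}
    (hω : ω ∈ (fil p wu wz wd).ge t) : cu x ω = 0 :=
  by_contra fun h0 => absurd (hω x h0) (not_le.2 h)

theorem T_mem (j : ℤ) : algebraMap (Au p) (Om p (Au p) s) (T j) ∈ (fil p wu wz wd).ge (wu * j) := by
  have : algebraMap (Au p) (Om p (Au p) s) (T j) = mu (j, 0, ∅) := by
    simp [mu, Algebra.algebraMap_eq_smul_one]
  rw [this]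
  exact mu_mem (by simp [wt])

theorem zm_mem (a : s → ℕ) :
    (Om.fn (zm a) : Om p (Au p) s) ∈ (fil p wu wz wd).ge (∑ i, a i * wz i) := by
  have : (Om.fn (zm a) : Om p (Au p) s) = mu (0, a, ∅) := by simp [mu, Om.mon_empty]
  rw [this]
  exact mu_mem (by simp [wt])

theorem z_mem' (i : s) : (Om.fn (z i) : Om p (Au p) s) ∈ (fil p wu wz wd).ge (wz i) := by
  have := zm_mem (p := p) (wu := wu) (wz := wz) (wd := wd) (Pi.single i 1)
  rw [zm_single, pow_one, sum_eq_single i (fun j _ hj => by simp [Pi.single_eq_of_ne hj])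
    (by simp)] at this
  simpa using this

theorem dz_mem (i : s) : (Om.dz i : Om p (Au p) s) ∈ (fil p wu wz wd).ge (wd i) := by
  have : (Om.dz i : Om p (Au p) s) = mu (0, 0, {i}) := by simp [mu, Om.mon_zero]
  rw [this]
  exact mu_mem (by simp [wt])

theorem fil_mono {wu' : ℤ} {wz' wd' : s → ℤ} {t t' : ℤ}
    (h : ∀ x : Ix s, (∀ i, x.2.1 i < p) → t ≤ wt wu wz wd x → t' ≤ wt wu' wz' wd' x)
    {ω : Om p (Au p) s} (hω : ω ∈ (fil p wu wz wd).ge t) : ω ∈ (fil p wu' wz' wd').ge t' :=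
  Sb_mono h hω

/-- `d` preserves a weight with `wz ≤ wd` -/
theorem d_mem (h : ∀ i, wz i ≤ wd i) {t : ℤ} {ω : Om p (Au p) s}
    (hω : ω ∈ (fil p wu wz wd).ge t) : Om.d ω ∈ (fil p wu wz wd).ge t := by
  refine Sb_ind (Q := fun a => Om.d a ∈ _) (by simp) (fun a a' h h' => ?_) (fun c x hx _ => ?_) hω
  · rw [map_add]; exact add_mem h h'
  rw [← algebraMap_smul (Au p) c, map_smul, algebraMap_smul, mu, map_smul, Om.d_mon, smul_sum]
  refine Sb_smul (sum_mem fun i _ => ?_) _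
  rw [smul_comm]
  by_cases h1 : x.2.1 i = 0
  · simp [h1]
  by_cases h2 : i ∈ x.2.2
  · rw [sg_of_not (by simpa using h2)]; simp
  refine zsmul_mem (mu_mem (x := (x.1, x.2.1 - Pi.single i 1, insert i x.2.2)) (hx.trans ?_)) _
  simp only [wt, sum_insert h2]
  have : ∑ j, (x.2.1 j : ℤ) * wz j = ∑ j, ((x.2.1 - Pi.single i 1 : s → ℕ) j : ℤ) * wz j + wz i := by
    rw [← sub_eq_iff_eq_add', ← sum_sub_distrib, sum_eq_single i]
    · simp only [Pi.sub_apply, Pi.single_eq_same]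
      rw [Nat.cast_sub (by omega)]; push_cast; ring
    · intro j _ hj; simp [Pi.single_eq_of_ne hj]
    · simp
  have := h i
  omega

omit [DecidableEq s] in
theorem fn_bc_smul (c : ZMod p) (f : O p (ZMod p) s) :
    (Om.fn (bc (Au p) (c • f)) : Om p (Au p) s) = c • Om.fn (bc (Au p) f) := by
  rw [map_smul, ← algebraMap_smul (Au p) c (bc (Au p) f), Om.fn_smul, algebraMap_smul]

omit [DecidableEq s] [Fact p.Prime] in
theorem bc_zm (K : Type) [CommRing K] {k : Type} [CommRing k] [Algebra k K] (a : s → ℕ) :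
    bc K (zm a : O p k s) = zm a := by simp [zm]

/-- functions with constant coefficients -/
theorem fn_bc_mem {t : ℤ} {f : O p (ZMod p) s}
    (h : ∀ a : s → ℕ, cf a f ≠ 0 → t ≤ ∑ i, a i * wz i) :
    (Om.fn (bc (Au p) f) : Om p (Au p) s) ∈ (fil p wu wz wd).ge t := by
  rw [← sum_cf f, map_sum, Om.fn, map_sum]
  refine sum_mem fun a _ => ?_
  change Om.fn _ ∈ _
  by_cases h0 : cf a f = 0
  · simp [h0]
  rw [fn_bc_smul, bc_zm]
  exact fil_smul (Fil.mono _ (zm_mem a) (h a h0)) _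

end

/-! ### pull back -/

section

variable {V : Type} [Fintype V] [DecidableEq V]

/-- base change of a substitution -/
noncomputable def up (φ : O p (ZMod p) s →ₐ[ZMod p] O p (ZMod p) V) :
    O p (Au p) s →ₐ[Au p] O p (Au p) V :=
  lift (fun x => bc (Au p) (φ (z x))) fun x => by
    rw [← map_pow, ← map_pow, z_pow, map_zero, map_zero]

omit [Fintype s] [DecidableEq s] [Fintype V] [DecidableEq V] in
@[simp] theorem up_z (φ : O p (ZMod p) s →ₐ[ZMod p] O p (ZMod p) V) (x : s) :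
    up φ (z x) = bc (Au p) (φ (z x)) := lift_z _ _ _

omit [Fintype s] [DecidableEq s] [Fintype V] [DecidableEq V] in
theorem up_bc (φ : O p (ZMod p) s →ₐ[ZMod p] O p (ZMod p) V) (f : O p (ZMod p) s) :
    up φ (bc (Au p) f) = bc (Au p) (φ f) := by
  have : ((up φ).restrictScalars (ZMod p)).comp (bc (Au p)) = (bc (Au p)).comp φ :=
    hom_ext fun i => by simp
  exact DFunLike.congr_fun this f

/-- pull back of forms -/
noncomputable def PB (φ : O p (ZMod p) s →ₐ[ZMod p] O p (ZMod p) V) :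
    Om p (Au p) s →ₐ[Au p] Om p (Au p) V := Om.pb (up φ)

theorem PB_z (φ : O p (ZMod p) s →ₐ[ZMod p] O p (ZMod p) V) (x : s) :
    PB φ (Om.fn (z x)) = Om.fn (bc (Au p) (φ (z x))) := by rw [PB, Om.pb_fn, up_z]

theorem PB_dz (φ : O p (ZMod p) s →ₐ[ZMod p] O p (ZMod p) V) (x : s) :
    PB φ (Om.dz x) = Om.d (Om.fn (bc (Au p) (φ (z x)))) := by rw [PB, Om.pb_dz, up_z]

theorem PB_d (φ : O p (ZMod p) s →ₐ[ZMod p] O p (ZMod p) V) (ω : Om p (Au p) s) :
    PB φ (Om.d ω) = Om.d (PB φ ω) := Om.pb_d _ _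

theorem PB_csmul (φ : O p (ZMod p) s →ₐ[ZMod p] O p (ZMod p) V) (c : ZMod p)
    (ω : Om p (Au p) s) : PB φ (c • ω) = c • PB φ ω := by
  rw [← algebraMap_smul (Au p) c ω, map_smul, algebraMap_smul]

theorem PB_mu (φ : O p (ZMod p) s →ₐ[ZMod p] O p (ZMod p) V) (x : Ix s) :
    PB φ (mu x) = algebraMap (Au p) _ (T x.1) * (PB φ (Om.fn (zm x.2.1)) * PB φ (Om.e x.2.2)) := by
  rw [mu, Om.mon, map_smul, ← Om.fn_mul, map_mul, Algebra.smul_def]

variable {wu : ℤ} {wz wd : V → ℤ}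

theorem cg_mu (φ ψ : O p (ZMod p) s →ₐ[ZMod p] O p (ZMod p) V) {vz vd : s → ℤ} (x : Ix s)
    (hz : ∀ i, x.2.1 i ≠ 0 → (fil p wu wz wd).Cg (vz i) (Om.fn (bc (Au p) (φ (z i))))
      (Om.fn (bc (Au p) (ψ (z i)))))
    (hd : ∀ i ∈ x.2.2, (fil p wu wz wd).Cg (vd i) (Om.d (Om.fn (bc (Au p) (φ (z i)))))
      (Om.d (Om.fn (bc (Au p) (ψ (z i)))))) :
    (fil p wu wz wd).Cg (wt wu vz vd x) (PB φ (mu x)) (PB ψ (mu x)) := by
  rw [PB_mu, PB_mu]
  have h1 := cg_zm (F := fil p wu wz wd) (PB φ).toRingHom (PB ψ).toRingHom (wz := vz) x.2.1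
    fun i hi => by simpa [PB_z] using hz i hi
  have h2 := cg_e (F := fil p wu wz wd) (PB φ).toRingHom (PB ψ).toRingHom (wd := vd) x.2.2
    fun i hi => by simpa [PB_dz] using hd i hi
  exact ((Fil.Cg.refl (T_mem x.1)).mul (h1.mul h2)).of_eq (by simp [wt, add_assoc])

theorem PB_mem (φ : O p (ZMod p) s →ₐ[ZMod p] O p (ZMod p) V) {vz vd : s → ℤ}
    (hz : ∀ i, Om.fn (bc (Au p) (φ (z i))) ∈ (fil p wu wz wd).ge (vz i))
    (hd : ∀ i, Om.d (Om.fn (bc (Au p) (φ (z i)))) ∈ (fil p wu wz wd).ge (vd i)) {t : ℤ}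
    {ω : Om p (Au p) s} (hω : ω ∈ (fil p wu vz vd).ge t) : PB φ ω ∈ (fil p wu wz wd).ge t := by
  refine Sb_ind (Q := fun a => PB φ a ∈ _) (by simp) (fun a a' h h' => ?_) (fun c x hx _ => ?_) hω
  · rw [map_add]; exact add_mem h h'
  rw [PB_csmul]
  exact fil_smul (Fil.mono _ (cg_mu φ φ x (fun i _ => .refl (hz i)) fun i _ => .refl (hd i)).rt
    hx) _

end

end N255.Vx
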