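import Crest.Agent.N255.Core.Stm
import Crest.Agent.N255.Dr.Wt

/-! Row 255 (helper21): the Gaussian top form is a multiple of the Thom form up to an exact form. -/

set_option autoImplicit false

namespace N255.Vx

open N255.Dr N255.Dr.O N255.Core LaurentPolynomial Finset

theorem top_form {p : ℕ} [Fact p.Prime] {X : Type} [Fintype X] [DecidableEq X] (Q : O p (ZMod p) X)
    (hQ : Q ∈ (mx : Ideal (O p (ZMod p) X)) ^ 2) :
    ∃ (g : Au p) (be : Om p (Au p) X),
      (∀ j, g.coeff j ≠ 0 → -(((p - 1 : ℕ) : ℤ) * (Fintype.card X : ℤ)) ≤ 2 * j) ∧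
      (O.E ((-T (-1) : Au p) • bc (Au p) Q)) • (Om.e univ : Om p (Au p) X) =
        g • Om.mon (Om.top p X) univ + Om.d be := by
  obtain ⟨be, h⟩ := Om.exists_d_top (O.E ((-T (-1) : Au p) • bc (Au p) Q))
  refine ⟨_, be, fun j hj => ?_, h⟩
  have h1 : Om.fn (bc (LA (ZMod p)) Q) ∈ Om.Fil 2 (fun _ => 1) (fun _ => 0) 2 :=
    Om.fn_bc_mem fun a ha => by
      have : ¬ ∑ i, a i < 2 := fun h2 => ha (cf_eq_zero_of_mem_pow hQ h2)
      simp only [gw, zero_smul, zero_add, sum_empty, add_zero, nsmul_eq_mul, mul_one]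
      exact_mod_cast not_lt.1 this
  have h2 : Om.fn ((-T (-1) : LA (ZMod p)) • bc (LA (ZMod p)) Q) ∈
      Om.Fil 2 (fun _ => 1) (fun _ => 0) 0 := by
    rw [Om.fn_smul, neg_smul]
    exact neg_mem (Om.Sw_T (-1) (fun x hx => by simp only [neg_smul, one_smul]; omega) h1)
  have h3 := Om.fn_mem_Su.1 (Om.E_Fil le_rfl (Submodule.smul_of_tower_mem _ _ (bc_mem_pow _ hQ)) h2).1
    j (Om.top p X) hj
  simp only [gw, Om.top, nsmul_eq_mul, mul_one, sum_const, card_univ,
    zsmul_eq_mul, Int.cast_id] at h3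
  linarith

end N255.Vx
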