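import Crest.Agent.N255.Vx.Geo
import Crest.Agent.N255.Vx.Tp

/-!
# Row 255, vertex count (helper7): the closed side
-/

set_option autoImplicit false
set_option linter.unusedSectionVars false

namespace N255.Vx

open Finset N255.Dr N255.Dr.O N255.Core LaurentPolynomial

theorem Lx.zero {B : Type*} [Ring B] {F J : Fil B} {s t : ℤ} : Lx F J s t 0 :=
  ⟨0, zero_mem _, zero_mem _, by simp⟩

theorem Lx.add {B : Type*} [Ring B] {F J : Fil B} {s t : ℤ} {a a' : B} (h : Lx F J s t a)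
    (h' : Lx F J s t a') : Lx F J s t (a + a') := by
  obtain ⟨b, h1, h2, h3⟩ := h
  obtain ⟨b', h1', h2', h3'⟩ := h'
  exact ⟨b + b', add_mem h1 h1', add_mem h2 h2', by
    rw [add_sub_add_comm]; exact add_mem h3 h3'⟩

variable {p : ℕ} [Fact p.Prime]

section Closed

variable {K : Type} [CommRing K] [Fact ((p : K) = 0)] {V : Type} [Fintype V] [DecidableEq V]

/-- `a` is closed and cohomologous to the closed form `h` -/
structure Ch (a h : Om p K V) : Prop where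
  cl : Om.d h = 0
  ex : ∃ z, a = Om.d z + h

theorem Ch.mul {a h a' h' : Om p K V} (c : Ch a h) (c' : Ch a' h') : Ch (a * a') (h * h') := by
  obtain ⟨z, rfl⟩ := c.ex
  obtain ⟨z', rfl⟩ := c'.ex
  refine ⟨by rw [Om.d_mul, c.cl, c'.cl]; simp, z * (Om.d z' + h') + Om.inv h * z', ?_⟩
  rw [map_add, Om.d_mul, Om.d_mul, map_add, Om.d_d, c'.cl, Om.d_inv, c.cl, Om.inv_inv]
  simp only [map_zero, neg_zero, zero_mul, add_zero, mul_zero, zero_add]
  noncomm_ring

theorem Ch.int {a h : Om p K V} (c : Ch a h) : Om.int a = Om.int h := by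
  obtain ⟨z, rfl⟩ := c.ex
  rw [map_add, Om.int_d, zero_add]

theorem d_top : Om.d (Om.mon (Om.top p V) univ : Om p K V) = 0 := by
  rw [Om.d_mon]
  exact sum_eq_zero fun i _ => by rw [sg_of_not (by simp)]; simp

end Closed

section

variable {s V : Type} [Fintype s] [DecidableEq s] [Fintype V] [DecidableEq V]

theorem Ch.pb (φ : O p (ZMod p) s →ₐ[ZMod p] O p (ZMod p) V) {a h : Om p (Au p) s} (c : Ch a h) :
    Ch (PB φ a) (PB φ h) := by
  obtain ⟨z, rfl⟩ := c.ex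
  exact ⟨by rw [← PB_d, c.cl, map_zero], PB φ z, by rw [map_add, PB_d]⟩

theorem cu_int (j : ℤ) (ω : Om p (Au p) s) :
    cu (j, Om.top p s, univ) ω = (Om.int ω).coeff j := rfl

theorem smul_mon_mem {g : Au p} {a : s → ℕ} {S : Finset s} {P : Ix s → Prop}
    (h : ∀ j, g.coeff j ≠ 0 → P (j, a, S)) : g • (Om.mon a S : Om p (Au p) s) ∈ Sb p P := by
  rintro ⟨j, a', S'⟩ hx
  rw [map_smul, Om.co_mon] at hx
  split_ifs at hx with h'
  · obtain ⟨⟨rfl, rfl⟩, -⟩ := h'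
    exact h j (by simpa using hx)
  · simp at hx

theorem PB_u (φ : O p (ZMod p) s →ₐ[ZMod p] O p (ZMod p) V) {wu r : ℤ} {ω : Om p (Au p) s}
    (h : ω ∈ (fil p wu 0 0).ge r) : PB φ ω ∈ (fil p wu 0 0).ge r :=
  PB_mem φ (vz := 0) (vd := 0) (fun _ => bc_mem0 (fun _ => le_rfl) _)
    (fun _ => d_bc_mem0 (fun _ => le_rfl) _) h

end

variable {Γ : Type} [AddCommGroup Γ] {δ : Γ} {s : Fin 3 → Type}
  [∀ i, Fintype (s i)] [∀ i, DecidableEq (s i)] {w : ∀ i, Wall p Γ δ (s i)} {t : Fin 3 → Bool}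
  {V : Type} [Fintype V] [DecidableEq V] {N La : ℕ} {v : VxG w t N La V}

theorem PB_io_f (v : VxG w t N La V) (i : Fin 3) {r : ℤ} {ω : Om p (Au p) (s i)}
    (h : ω ∈ (fil p 0 (fq (w i) N (t i)) (fq (w i) N (t i))).ge r) :
    PB (v.io i) ω ∈ (pf v.FV 1 0).ge r :=
  PB_mem _ (fun x => Fil.mono _ (io_f0 v 1 one_pos 0 i x) (by simp))
    (fun x => Fil.mono _ (io_f1 v 1 one_pos 0 i x) (by simp)) h

theorem Su.lx_h (U : Su v) (i : Fin 3) {h : Om p (Au p) (s i)} (hh : In ((w i).Hm N (t i)) h) :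
    Lx (pf v.FV 1 0) (fil p 2 0 0) (wt 0 (fq (w i) N (t i)) (fq (w i) N (t i)) ((w i).h0 (t i) 0)) 0
      (PB (v.io i) h) := by
  refine Sb_ind (P := (w i).Hm N (t i)) (Q := fun h => Lx _ _ _ _ (PB (v.io i) h))
    (by rw [map_zero]; exact Lx.zero) (fun a b ha hb => by rw [map_add]; exact ha.add hb)
    (fun c x hx hb => ?_) hh
  rcases hm_lt (U.pos i) hb hx with ⟨h1, h2⟩ | h1
  · refine ⟨_, PB_io_f v i (fil_smul (mu_mem ?_) c), PB_u _ (fil_smul (mu_mem ?_) c),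
      by rw [sub_self]; exact zero_mem _⟩
    · rw [h1, h0_w, h0_w]
    · simp only [wt, Pi.zero_apply, mul_zero, sum_const_zero]; omega
  · exact ⟨0, zero_mem _, zero_mem _, by
      rw [sub_zero]; exact PB_io_f v i (fil_smul (mu_mem h1) c)⟩

/-- the exponent of `u` that is read off -/
def Jx (w : ∀ i, Wall p Γ δ (s i)) (t : Fin 3 → Bool) : ℤ :=
  -1 - ((p - 1 : ℕ) : ℤ) * Fintype.card (Bi w t)

theorem Su.lhs (U : Su v) {a h : ∀ i, Om p (Au p) (s i)} (c : ∀ i, Ch (a i) (h i))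
    (hh : ∀ i, In ((w i).Hm N (t i)) (h i)) :
    cu (Jx w t, Om.top p V, univ) (PB (v.io 0) (a 0) * PB (v.io 1) (a 1) * PB (v.io 2) (a 2) *
      PB v.rho (O.E ((-T (-1) : Au p) • bc (Au p) v.Q) • Om.e univ)) = 0 := by
  classical
  obtain ⟨g, be, hg, he⟩ := top_form v.Q v.hQ
  have c4 : Ch (O.E ((-T (-1) : Au p) • bc (Au p) v.Q) • Om.e univ)
      (g • Om.mon (Om.top p (Xi w t)) univ) :=
    ⟨by rw [map_smul, d_top, smul_zero], be, by rw [he, add_comm]⟩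
  have := (((((c 0).pb (v.io 0)).mul ((c 1).pb (v.io 1))).mul ((c 2).pb (v.io 2))).mul
    (c4.pb v.rho)).int
  rw [cu_int, this, ← cu_int]
  have l4 : Lx (pf v.FV 1 0) (fil p 2 0 0)
      (∑ q : Xi w t, (((p - 1 : ℕ) : ℤ) * v.FV (v.em q.1) + v.FV (v.em q.1)))
      (-(((p - 1 : ℕ) : ℤ) * (Fintype.card (Xi w t) : ℤ)))
      (PB v.rho (g • Om.mon (Om.top p (Xi w t)) univ)) := by
    refine ⟨_, PB_mem (wu := 0) _ (vz := fun q => v.FV (v.em q.1)) (vd := fun q => v.FV (v.em q.1))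
      (fun q => Fil.mono _ ((nm_rho v q).f0 1 0 one_pos).lt (by simp))
      (fun q => Fil.mono _ ((nm_rho v q).f1 1 0 one_pos).lt (by simp))
      (smul_mon_mem fun j _ => ?_),
      PB_u _ (smul_mon_mem fun j hj => ?_), by rw [sub_self]; exact zero_mem _⟩
    · simp [wt, Om.top, sum_add_distrib]
    · simpa [wt] using hg j hj
  refine ((((U.lx_h 0 (hh 0)).mul (U.lx_h 1 (hh 1))).mul (U.lx_h 2 (hh 2))).mul l4).eq_zero
    (cu (Jx w t, Om.top p V, univ)) (fun a ha => cu_eq_zero ?_ ha) fun a ha => cu_eq_zero ?_ ha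
  · have e := U.sum_eq fun x => ((p - 1 : ℕ) : ℤ) * v.FV x + v.FV x
    have e' : ∀ i, ∑ x ∈ (w i).nr (t i), (((p - 1 : ℕ) : ℤ) * v.FV (v.em (⟨i, x⟩, false)) +
        v.FV (v.em (⟨i, x⟩, false))) =
        wt 0 (fq (w i) N (t i)) (fq (w i) N (t i)) ((w i).h0 (t i) 0) := fun i => by
      rw [h0_w]
      exact sum_congr rfl fun x hx => by rw [fV_em v (ne_of_nr hx)]
    simp only [e', Fin.sum_univ_three] at e
    rw [← e]
    simp [wt, Om.top, sum_add_distrib]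
  · rw [card_xi]
    simp only [wt, Jx, Pi.zero_apply, mul_zero, sum_const_zero]
    push_cast
    linarith

end N255.Vx
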