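import Crest.Agent.N255.Vx.Rhs

/-!
# Row 255, vertex count (helper7): the vertex theorem `VertexG`
-/

set_option autoImplicit false
set_option linter.unusedSectionVars false

namespace N255.Vx

open Finset N255.Dr N255.Dr.O N255.Core LaurentPolynomial

variable {p : ℕ} [Fact p.Prime] {Γ : Type} [AddCommGroup Γ] {δ : Γ} {s : Fin 3 → Type}
  [∀ i, Fintype (s i)] [∀ i, DecidableEq (s i)] {w : ∀ i, Wall p Γ δ (s i)} {t : Fin 3 → Bool}
  {V : Type} [Fintype V] [DecidableEq V] {N La : ℕ} {v : VxG w t N La V}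

/-- the Gaussian term of a pair -/
noncomputable def ga (v : VxG w t N La V) (b : Bi w t) : O p (ZMod p) V :=
  v.c b.1.1 b.1.2 • (z (v.em (b.1, false)) * z (v.em (b.1, true)))

theorem ga_mem (b : Bi w t) : ga v b ∈ (mx : Ideal (O p (ZMod p) V)) ^ 2 := by
  rw [ga, Algebra.smul_def, pow_two]
  exact Ideal.mul_mem_left _ _ (Ideal.mul_mem_mul (z_mem _) (z_mem _))

theorem E_ga (b : Bi w t) : O.E (xu (ga v b)) = tx p (xu (ga v b)) := by
  have : xu (ga v b) = ((-T (-1) : Au p) • bc (Au p) (v.c b.1.1 b.1.2 •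
      (z (v.em (b.1, false)) : O p (ZMod p) V))) * z (v.em (b.1, true)) := by
    rw [xu, ga, ← smul_mul_assoc, map_mul, bc_z, smul_mul_assoc]
  rw [this]
  refine E_mul ?_ (z_mem _)
  rw [Algebra.smul_def]
  refine Ideal.mul_mem_left _ _ (bc_mem _ ?_)
  rw [Algebra.smul_def]
  exact Ideal.mul_mem_left _ _ (z_mem _)

/-- the Gaussian factor -/
noncomputable def GG (v : VxG w t N La V) : O p (Au p) V := ∏ b, tx p (xu (ga v b))

theorem GG_mem {wu : ℤ} {wz wd : V → ℤ}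
    (h : ∀ b : Bi w t, wu ≤ wz (v.em (b.1, false)) + wz (v.em (b.1, true))) :
    (Om.fn (GG v) : Om p (Au p) V) ∈ (fil p wu wz wd).ge 0 := by
  have := Fil.prod (F := (fil p wu wz wd).comap (algebraMap (O p (Au p) V) (Om p (Au p) V)))
    univ (t := fun _ => 0) (a := fun b : Bi w t => tx p (xu (ga v b))) fun b _ =>
      Fil.tx_mem p (by
        rw [Fil.mem_comap]
        refine Fil.mono _ (xu_fil (r := wu) ?_) (by omega)
        rw [ga, fn_bc_smul, map_mul, bc_z, bc_z, Om.fn, map_mul]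
        exact fil_smul (Fil.mul' _ (z_mem' _) (z_mem' _) (h b)) _)
  rw [sum_const_zero] at this
  exact this

/-- the signed potential -/
noncomputable def sW (v : VxG w t N La V) (i : Fin 3) : O p (ZMod p) V :=
  if t i = true then v.io i (w i).W else -v.io i (w i).W

theorem sW_mem (i : Fin 3) : sW v i ∈ (mx : Ideal (O p (ZMod p) V)) ^ 2 := by
  have := map_mx_pow (v.io i) (io_mx v i) (w i).W2
  unfold sW
  split_ifs
  exacts [this, neg_mem this]

theorem up_Eu (i : Fin 3) : up (v.io i) ((w i).Eu (t i)) = O.E (xu (sW v i)) := by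
  unfold Wall.Eu sW
  split_ifs
  · exact up_E _ (io_mx v i) (w i).W2
  · rw [← map_neg, ← up_E _ (io_mx v i) (neg_mem (w i).W2), xu, map_neg, neg_smul_neg]

theorem E_all : O.E (xu (sW v 0)) * O.E (xu (sW v 1)) * O.E (xu (sW v 2)) *
    (GG v * O.E (xu v.Ps)) = up v.rho (O.E (xu v.Q)) := by
  have h1 : ∑ b, ga v b = ∑ i, ∑ x, (if t i = false ∧ (w i).kd x = none then
      v.c i x • (z (v.em (⟨i, x⟩, false)) * z (v.em (⟨i, x⟩, true))) else 0) :=
    sum_bi (w := w) (t := t) fun q => v.c q.1 q.2 • (z (v.em (q, false)) * z (v.em (q, true)))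
  have h2 : ∑ i, sW v i + ∑ b, ga v b + v.Ps = v.rho v.Q := by rw [h1]; exact v.eq
  have h3 : GG v = O.E (xu (∑ b, ga v b)) := by
    rw [xu_sum, E_sum _ _ fun b _ => xu_mem (ga_mem b), GG]
    exact prod_congr rfl fun b _ => (E_ga b).symm
  have m1 : ∑ i, sW v i ∈ (mx : Ideal (O p (ZMod p) V)) ^ 2 := sum_mem fun i _ => sW_mem i
  have m2 : ∑ b, ga v b ∈ (mx : Ideal (O p (ZMod p) V)) ^ 2 := sum_mem fun b _ => ga_mem b
  rw [up_E _ (fun q => (nm_rho v q).mx) v.hQ, ← h2, xu_add, xu_add,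
    E_add (add_mem (xu_mem m1) (xu_mem m2)) (xu_mem v.Ps2), E_add (xu_mem m1) (xu_mem m2), ← h3,
    xu_sum, E_sum _ _ fun i _ => xu_mem (sW_mem i), Fin.prod_univ_three, mul_assoc _ (GG v)]

namespace Su

variable (U : Su v) {al : ∀ i, s i}

theorem eta_w {i : Fin 3} {al : s i} (hal : (w i).kd al = none) (hG : (w i).Gd N La (t i) al)
    {η : Om p (Au p) (s i)} (h : In ((w i).Lt N La (t i) al) (η - mu ((w i).ld (t i) al))) :
    U.WW.Cg (wt (4 * La + 1) (vq (w i) N La (t i)) (fun x => 2 * fq (w i) N (t i) x)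
      ((w i).ld (t i) al)) (PB (v.io i) η)
      (PB (rn fun x => v.em (⟨i, x⟩, false)) (mu ((w i).ld (t i) al))) := by
  have h1 := cg_mu (wu := 4 * La + 1) (wz := U.wV) (wd := fun x => ((2 : ℕ) : ℤ) * v.FV x)
    (v.io i) (rn fun x => v.em (⟨i, x⟩, false)) (vz := vq (w i) N La (t i))
    (vd := fun x => 2 * fq (w i) N (t i) x) ((w i).ld (t i) al)
    (fun x hx => by rw [rn_z]; exact U.cg_w0 (ld_ne hal hx))
    fun x hx => by
      rw [rn_z, ← fV_em v (ne_of_nr hx)]; exact U.cg_w1 (nm_io v (ne_of_nr hx))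
  refine Fil.Cg.trans ⟨h1.lt, ?_⟩ h1
  rw [← map_sub]
  exact PB_mem _ (U.io_w0 i) (U.io_w1 i) (Sb_mono (fun x hb hx => lt_w hG hal hb hx) h)

theorem eta_j {i : Fin 3} {al : s i} (hal : (w i).kd al = none) (hG : (w i).Gd N La (t i) al)
    {η : Om p (Au p) (s i)} (h : In ((w i).Lt N La (t i) al) (η - mu ((w i).ld (t i) al))) :
    PB (v.io i) η ∈ U.JJ.ge 0 := by
  refine PB_mem _ (vz := jq (w i) (t i)) (vd := 0) (U.io_j0 i)
    (fun x => d_bc_mem0 U.jV_nonneg _) ?_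
  rw [← sub_add_cancel η (mu ((w i).ld (t i) al))]
  exact add_mem (Sb_mono (fun x hb hx => lt_j hG hb hx) h)
    (mu_mem (by rw [wt_jq, ld_j hal]))

theorem th_w : U.WW.Cg (∑ q : Xi w t, 2 * (v.FV (v.em q.1) : ℤ)) (PB v.rho (Om.e univ))
    (PB (rn fun q : Xi w t => v.em q.1) (Om.e univ)) :=
  cg_e (F := U.WW) (PB v.rho).toRingHom (PB (rn fun q : Xi w t => v.em q.1)).toRingHom univ
    fun q _ => by simpa [PB_dz] using U.cg_w1 (nm_rho v q)

theorem th_j : PB v.rho (Om.e univ) ∈ U.JJ.ge 0 := by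
  have := (cg_e (F := U.JJ) (PB v.rho).toRingHom (PB v.rho).toRingHom (wd := fun _ => 0) univ
    fun q _ => Fil.Cg.refl (by
      simpa [PB_dz] using d_bc_mem0 (wu := 1) U.jV_nonneg (v.rho (z q)))).lt
  simpa using this

theorem jV_y (b : Bi w t) : U.jV (v.em (b.1, false)) = 1 := by
  rw [jV, U.pr_em (ok_xi (q := (b.1, false)) b.2), if_pos ⟨b.2, rfl⟩]

theorem jV_m (b : Bi w t) : U.jV (v.em (b.1, true)) = 0 := by
  rw [jV, U.pr_em (ok_xi (q := (b.1, true)) b.2), if_neg (by simp)]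

theorem wV_y (b : Bi w t) : U.wV (v.em (b.1, false)) = 2 * La + 1 := by
  rw [wV, U.jV_y, U.pr_em (ok_xi (q := (b.1, false)) b.2), if_pos b.2.2]

theorem wV_m (b : Bi w t) : U.wV (v.em (b.1, true)) = 2 * La := by
  rw [wV, U.jV_m, U.pr_em (ok_xi (q := (b.1, true)) b.2), if_pos b.2.2, add_zero]

theorem ps_w (a : V → ℕ) (ha : cf a v.Ps ≠ 0) : 6 * (La : ℤ) ≤ ∑ x, a x * U.wV x := by
  classical
  have h1 : ((3 * La : ℕ) : ℤ) ≤ _ := Nat.cast_le.2 (v.hPs a ha)
  push_cast at h1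
  have h2 := mul_le_mul_of_nonneg_left h1 (by norm_num : (0 : ℤ) ≤ 2)
  rw [mul_sum] at h2
  refine le_trans (by omega) (h2.trans (sum_le_sum fun x _ => ?_))
  rw [mul_left_comm]
  refine mul_le_mul_of_nonneg_left ?_ (by omega)
  split_ifs with h
  · exact U.fV_le x
  · have h3 := U.jV_nonneg x
    rw [wV, if_pos]
    · omega
    rcases ok_cases (U.ok x) with h4 | ⟨h4, h5⟩
    · exact h4.2
    rcases mem_nr.1 h5 with h5 | h5
    · exact absurd ⟨_, _, h5, by rw [← h4]; exact (U.em_pr x).symm⟩ h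
    · exact h5.2

theorem tgt_w (hal : ∀ i, (w i).kd (al i) = none) :
    wt (4 * La + 1) U.wV (fun x => ((2 : ℕ) : ℤ) * v.FV x) (Jx (p := p) w t, Om.top p V, univ) =
      ∑ i, wt (4 * La + 1) (vq (w i) N La (t i)) (fun x => 2 * fq (w i) N (t i) x)
        ((w i).ld (t i) (al i)) + ∑ q : Xi w t, 2 * (v.FV (v.em q.1) : ℤ) + (2 * La - 1) := by
  have e := U.sum_eq fun x => ((p - 1 : ℕ) : ℤ) * U.wV x + 2 * v.FV x
  have e1 : ∀ i, ∑ x ∈ (w i).nr (t i), (((p - 1 : ℕ) : ℤ) * U.wV (v.em (⟨i, x⟩, false)) +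
      2 * v.FV (v.em (⟨i, x⟩, false))) = wt (4 * La + 1) (vq (w i) N La (t i))
        (fun x => 2 * fq (w i) N (t i) x) ((w i).ld (t i) (al i)) + 2 * La := fun i => by
    rw [ld_w (hal i), sub_add_cancel]
    exact sum_congr rfl fun x hx => by rw [fV_em v (ne_of_nr hx), U.wV_em (ne_of_nr hx)]
  have e2 : ∑ q : Xi w t, U.wV (v.em q.1) = Fintype.card (Bi w t) * (4 * La + 1) := by
    rw [sum_xi, sum_congr rfl fun b _ => (by
      change U.wV (v.em (b.1, false)) + U.wV (v.em (b.1, true)) = 4 * La + 1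
      rw [U.wV_y, U.wV_m]; ring), sum_const, card_univ, nsmul_eq_mul]
  simp only [e1, sum_add_distrib, ← mul_sum, e2, sum_const, card_univ, Fintype.card_fin] at e
  simp only [wt, Om.top, Jx, ← mul_sum] at e ⊢
  push_cast at e ⊢
  linear_combination e

theorem tgt_j : wt 1 U.jV 0 (Jx (p := p) w t, Om.top p V, univ) < 0 := by
  have e := U.sum_eq U.jV
  have e1 : ∀ i, ∑ x ∈ (w i).nr (t i), U.jV (v.em (⟨i, x⟩, false)) = 0 := fun i =>
    sum_eq_zero fun x hx => by rw [U.jV_em (ne_of_nr hx), jq_nr hx]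
  have e2 : ∑ q : Xi w t, U.jV (v.em q.1) = Fintype.card (Bi w t) := by
    rw [sum_xi, sum_congr rfl fun b _ => (by
      change U.jV (v.em (b.1, false)) + U.jV (v.em (b.1, true)) = 1
      rw [U.jV_y, U.jV_m]; ring), sum_const, card_univ, nsmul_eq_mul, mul_one]
  simp only [e1, e2, sum_const_zero, zero_add] at e
  simp only [wt, Om.top, Jx, ← mul_sum, e, Pi.zero_apply, sum_const_zero]
  linarith

theorem a0_em {i : Fin 3} {x : s i} (h : (w i).kd x ≠ some (!t i)) :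
    U.a0 al (v.em (⟨i, x⟩, false)) = ((w i).ld (t i) (al i)).2.1 x := by
  rw [a0, U.pr_em (ok_ne h), if_pos rfl]

theorem a0_m (b : Bi w t) : U.a0 al (v.em (b.1, true)) = 0 := by
  rw [a0, U.pr_em (ok_xi (q := (b.1, true)) b.2), if_neg (by simp)]

theorem a0_le (x : V) : U.a0 al x ≤ p - 1 := by
  have hp := (Fact.out : p.Prime).two_le
  simp only [a0, Wall.ld]
  split_ifs <;> omega

end Su

theorem ok_n {al : ∀ i, s i} (hal : ∀ i, (w i).kd (al i) = none) (i : Fin 3) :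
    Ok w t (⟨i, al i⟩, !t i) := by
  cases h : t i
  · exact Or.inr ⟨rfl, h, hal i⟩
  · exact Or.inl ⟨rfl, by simp [hal i]⟩

theorem r_em {al : ∀ i, s i} (hal : ∀ i, (w i).kd (al i) = none) {i : Fin 3} {x : s i} {b : Bool}
    (h : Ok w t (⟨i, x⟩, b)) :
    (∑ j, Pi.single (v.em (⟨j, al j⟩, !t j)) 1 : V → ℕ) (v.em (⟨i, x⟩, b)) =
      if x = al i ∧ b = !t i then 1 else 0 := by
  rw [Finset.sum_apply, sum_eq_single i]
  · rw [Pi.single_apply]
    refine if_congr ⟨fun h' => ?_, by rintro ⟨rfl, rfl⟩; rfl⟩ rfl rfl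
    simpa using v.inj h (ok_n hal i) h'
  · intro j _ hj
    refine Pi.single_eq_of_ne (fun h' => hj ?_) _
    exact (congrArg (fun q => q.1.1) (v.inj h (ok_n hal j) h')).symm
  · simp

theorem Su.gauss (U : Su v) {al : ∀ i, s i} (hal : ∀ i, (w i).kd (al i) = none) :
    ∃ c : ZMod p, c ≠ 0 ∧ (cf (Om.top p V - U.a0 al) (GG v * bc (Au p) v.Ps)).coeff
      (Jx (p := p) w t - (∑ i, ((w i).ld (t i) (al i)).1 - 1)) = c * v.cub al := by
  have hp := (Fact.out : p.Prime).two_le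
  have oy : ∀ b : Bi w t, Ok w t (b.1, false) := fun b => ok_xi (q := (b.1, false)) b.2
  have om : ∀ b : Bi w t, Ok w t (b.1, true) := fun b => ok_xi (q := (b.1, true)) b.2
  have ky : ∀ b : Bi w t, (w b.1.1).kd b.1.2 ≠ some (!t b.1.1) := fun b => by rw [b.2.2]; simp
  have hr : ∀ x, (Om.top p V - U.a0 al) x < p := fun x => by
    simp only [Pi.sub_apply, Om.top]; omega
  have := cf_gauss (fun b : Bi w t => v.em (b.1, false)) (fun b : Bi w t => v.em (b.1, true))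
    (fun b b' h => Subtype.ext (congrArg Prod.fst (v.inj (oy b) (oy b') h)))
    (fun b b' h => Subtype.ext (congrArg Prod.fst (v.inj (om b) (om b') h)))
    (fun b b' h => by simpa using congrArg Prod.snd (v.inj (oy b) (om b') h))
    (fun b => v.c b.1.1 b.1.2) (Om.top p V - U.a0 al)
    (∑ j, Pi.single (v.em (⟨j, al j⟩, !t j)) 1) hr
    (fun b => by rw [r_em hal (oy b), if_neg (by simp [b.2.1])])
    (fun b => by
      have hn : b.1.2 ∉ (w b.1.1).nr (t b.1.1) := fun h => not_xi h true b.2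
      simp only [Pi.sub_apply, Om.top]
      rw [r_em hal (om b), U.a0_m, U.a0_em (ky b)]
      simp only [Wall.ld, hn]
      by_cases h : b.1.2 = al b.1.1 <;> simp [h, b.2.1]
      omega)
    (fun x h1 h2 => by
      have h3 := U.em_pr x
      have h4 := U.ok x
      generalize U.pr x = q at h3 h4
      obtain ⟨⟨i, y⟩, b⟩ := q
      subst h3
      rcases ok_cases h4 with h5 | ⟨h5, h6⟩
      · cases b
        exacts [absurd rfl (h1 ⟨_, h5⟩), absurd rfl (h2 ⟨_, h5⟩)]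
      simp only at h5 h6
      subst h5
      simp only [Pi.sub_apply, Om.top]
      rw [r_em hal h4, U.a0_em (ne_of_nr h6)]
      simp only [Wall.ld, h6]
      by_cases h : y = al i
      · subst h
        have : t i = true := by simpa [mem_nr, hal i] using h6
        simp [this]
        omega
      · simp [h]) v.Ps
  have hne : ∀ i j : Fin 3, i ≠ j → v.em (⟨i, al i⟩, !t i) ≠ v.em (⟨j, al j⟩, !t j) :=
    fun i j hij h => hij (congrArg (fun q => q.1.1) (v.inj (ok_n hal i) (ok_n hal j) h))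
  rw [Fin.sum_univ_three, ← cub_eq (hne 0 1 (by simp)) (hne 0 2 (by simp)) (hne 1 2 (by simp))]
    at this
  refine ⟨_, prod_ne_zero_iff.2 fun b _ => mul_ne_zero (ic_ne (hr _))
    (pow_ne_zero _ (neg_ne_zero.2 (v.hc _ _ b.2.1 b.2.2))), Eq.trans ?_ this⟩
  congr 1
  have e1 : ∀ b : Bi w t, (((Om.top p V - U.a0 al) (v.em (b.1, false)) : ℕ) : ℤ) =
      ((p - 1 : ℕ) : ℤ) - ((w b.1.1).ld (t b.1.1) (al b.1.1)).2.1 b.1.2 := fun b => by
    rw [← U.a0_em (ky b)]
    exact Nat.cast_sub (U.a0_le _)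
  have e2 := sum_bi (w := w) (t := t) fun q => (((w q.1).ld (t q.1) (al q.1)).2.1 q.2 : ℤ)
  have e3 := sum_eq_zero (s := univ) fun i _ => ld_j (w := w i) (b := t i) (hal i)
  simp only [Wall.jw, sum_add_distrib] at e3
  simp only [e1, sum_sub_distrib, e2, sum_const, card_univ, nsmul_eq_mul, Jx]
  linear_combination -e3

theorem Su.val (U : Su v) {al : ∀ i, s i} (hal : ∀ i, (w i).kd (al i) = none)
    (h : cu (Jx (p := p) w t, Om.top p V, univ)
      (PB (rn fun x => v.em (⟨0, x⟩, false)) (mu ((w 0).ld (t 0) (al 0))) *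
      PB (rn fun x => v.em (⟨1, x⟩, false)) (mu ((w 1).ld (t 1) (al 1))) *
      PB (rn fun x => v.em (⟨2, x⟩, false)) (mu ((w 2).ld (t 2) (al 2))) *
      PB (rn fun q : Xi w t => v.em q.1) (Om.e univ) *
      (Om.fn (GG v) * Om.fn (xu v.Ps))) = 0) : v.cub al = 0 := by
  obtain ⟨ε, h1, h2⟩ := U.sq_lead
  obtain ⟨c, hc, h3⟩ := U.gauss hal
  have h4 := U.prod_lead hal
  rw [Fin.prod_univ_three] at h4
  rw [PB_rn_mu, PB_rn_mu, PB_rn_mu, ← map_mul, Om.mul_fn, smul_mul_smul_comm, smul_mul_smul_comm,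
    smul_mul_assoc, smul_smul] at h
  erw [h2] at h
  rw [smul_comm, map_zsmul, cu_top, smul_mul_smul_comm, smul_mul_smul_comm, h4, xu,
    mul_smul_comm _ (GG v), smul_mul_smul_comm, map_smul, mul_comm _ (zm _),
    gc_cf_zm_mul (Om.top p V) _ (fun _ => Nat.sub_lt (Fact.out : p.Prime).pos one_pos),
    if_pos (show ∀ x, U.a0 al x ≤ Om.top p V x from U.a0_le),
    smul_eq_mul, neg_mul, neg_mul, ← T_add, ← T_add, ← T_add, AddMonoidAlgebra.coeff_neg,
    Finsupp.neg_apply, coeff_T_mul] at h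
  rw [Fin.sum_univ_three, sub_eq_neg_add _ (1 : ℤ)] at h3
  rw [h3, zsmul_eq_mul] at h
  have h5 : (ε : ZMod p) * ε = 1 := by exact_mod_cast congrArg (Int.cast : ℤ → ZMod p) h1
  refine (mul_eq_zero.1 (?_ : c * v.cub al = 0)).resolve_left hc
  linear_combination (-ε) * h - (c * v.cub al) * h5

/-- THE VERTEX THEOREM -/
theorem vertexG_holds : VertexG := by
  intro p _ Γ _ δ s _ _ w t N La V _ _ v al hal hG hT
  choose pr ok em_pr using v.onto
  let U : Su v := ⟨pr, ok, em_pr, fun i => (hG i).pos, fun i => (hG i).le⟩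
  choose ze h cl hh hη using hT
  have hLa : 1 ≤ La := ((hG 0).pos (al 0)).trans_le ((hG 0).le _ (hal 0))
  have h0 := U.lhs (a := fun i => Om.d (ze i) + h i) (fun i => ⟨cl i, ze i, rfl⟩) hh
  have h1 := rhs_abs U.WW U.JJ (cu (Jx (p := p) w t, Om.top p V, univ)) (l := 2 * La - 1)
    (G := Om.fn (GG v)) (E := Om.fn (O.E (xu v.Ps))) (ψ := Om.fn (xu v.Ps))
    (fun a ha => cu_eq_zero (by rw [U.tgt_w hal]; exact lt_add_one _) ha)
    (fun a ha => cu_eq_zero U.tgt_j ha) (fun i => U.eta_w (hal i) (hG i) (hη i))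
    (fun i => U.eta_j (hal i) (hG i) (hη i))
    (GG_mem fun b => by rw [U.wV_y, U.wV_m]; omega)
    (GG_mem fun b => by rw [U.jV_y, U.jV_m]; omega) U.th_w U.th_j
    (Fil.mono _ (xu_fil (fn_bc_mem U.ps_w)) (by omega))
    (Fil.mono _ (E_xu_sub (l := 2 * La - 1) (by omega) v.Ps2 fun a ha =>
      le_trans (by omega) (U.ps_w a ha)) (by omega)) (by rw [Fin.sum_univ_three])
  refine U.val hal (h1.symm.trans (Eq.trans ?_ h0))
  congr 1
  simp only [PB_smul, up_Eu]
  rw [← map_mul, Om.mul_fn, smul_mul_smul_comm, smul_mul_smul_comm, smul_mul_assoc, smul_smul,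
    mul_comm (GG v * _), E_all, mul_smul_comm]
  rfl

end N255.Vx
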