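import Crest.Agent.N255.Vx.Lhs
import Crest.Agent.N255.Vx.Gc
import Crest.Agent.N255.Dr.Wt

/-!
# Row 255, vertex count (helper7): exponentials and the leading term
-/

set_option autoImplicit false
set_option linter.unusedSectionVars false

namespace N255.Vx

open Finset N255.Dr N255.Dr.O N255.Core LaurentPolynomial

variable {p : ℕ} [Fact p.Prime]

section Exp

variable {s V : Type} [Fintype s] [DecidableEq s] [Fintype V] [DecidableEq V]

/-- `- f / u` -/
noncomputable def xu (f : O p (ZMod p) s) : O p (Au p) s := (-T (-1) : Au p) • bc (Au p) f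

theorem xu_add (f g : O p (ZMod p) s) : xu (f + g) = xu f + xu g := by
  rw [xu, xu, xu, map_add, smul_add]

theorem xu_sum {ι : Type*} (S : Finset ι) (f : ι → O p (ZMod p) s) :
    xu (∑ i ∈ S, f i) = ∑ i ∈ S, xu (f i) := by
  simp only [xu, map_sum, smul_sum]

theorem xu_mem {f : O p (ZMod p) s} (h : f ∈ (mx : Ideal (O p (ZMod p) s)) ^ 2) :
    xu f ∈ (mx : Ideal (O p (Au p) s)) ^ 2 := by
  rw [xu, Algebra.smul_def]
  exact Ideal.mul_mem_left _ _ (bc_mem_pow _ h)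

theorem up_E (φ : O p (ZMod p) s →ₐ[ZMod p] O p (ZMod p) V) (hφ : ∀ x, φ (z x) ∈ mx)
    {f : O p (ZMod p) s} (h : f ∈ (mx : Ideal (O p (ZMod p) s)) ^ 2) :
    up φ (O.E (xu f)) = O.E (xu (φ f)) := by
  rw [E_map (up φ) (fun x => by rw [up_z]; exact bc_mem _ (hφ x)) (xu_mem h), xu, xu, map_smul,
    up_bc]

theorem PB_smul (φ : O p (ZMod p) s →ₐ[ZMod p] O p (ZMod p) V) (f : O p (Au p) s)
    (ω : Om p (Au p) s) : PB φ (f • ω) = up φ f • PB φ ω := Om.pb_smul _ _ _

theorem xu_fil {wu r : ℤ} {wz wd : s → ℤ} {f : O p (ZMod p) s}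
    (h : (Om.fn (bc (Au p) f) : Om p (Au p) s) ∈ (fil p wu wz wd).ge r) :
    (Om.fn (xu f) : Om p (Au p) s) ∈ (fil p wu wz wd).ge (r - wu) := by
  rw [xu, Om.fn_smul, neg_smul, Algebra.smul_def]
  exact neg_mem (Fil.mul' _ (T_mem (-1)) h (by omega))

theorem E_xu_sub {wu l : ℤ} (hl : 0 ≤ l) {wz wd : s → ℤ} {f : O p (ZMod p) s}
    (h2 : f ∈ (mx : Ideal (O p (ZMod p) s)) ^ 2)
    (h : ∀ a : s → ℕ, cf a f ≠ 0 → l + wu ≤ ∑ i, a i * wz i) :
    (Om.fn (O.E (xu f)) - 1 - Om.fn (xu f) : Om p (Au p) s) ∈ (fil p wu wz wd).ge (2 * l) := by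
  have e : f = ∑ a ∈ (O.box p s).filter fun a => cf a f ≠ 0, cf a f • zm a := by
    rw [sum_filter_of_ne (p := fun a => cf a f ≠ 0)
      (f := fun a => cf a f • (zm a : O p (ZMod p) s)) fun a _ h h0 => h (by rw [h0, zero_smul]),
      sum_cf]
  have h3 : ∀ a ∈ (O.box p s).filter fun a => cf a f ≠ 0, 2 ≤ ∑ i, a i := fun a ha =>
    by_contra fun h' => (mem_filter.1 ha).2 (cf_eq_zero_of_mem_pow h2 (not_le.1 h'))
  have h4 : ∀ a ∈ (O.box p s).filter fun a => cf a f ≠ 0,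
      O.E (xu (cf a f • zm a)) = tx p (xu (cf a f • zm a : O p (ZMod p) s)) := fun a ha => by
    rw [xu, map_smul, bc_zm, ← algebraMap_smul (Au p) (cf a f), smul_smul]
    exact E_monomial _ (h3 a ha)
  have h5 := Fil.prod_tx (F := (fil p wu wz wd).comap (algebraMap (O p (Au p) s) (Om p (Au p) s)))
    p_zero hl ((O.box p s).filter fun a => cf a f ≠ 0)
    (x := fun a => xu (cf a f • zm a : O p (ZMod p) s)) fun a ha => by
      rw [Fil.mem_comap]
      refine Fil.mono _ (xu_fil (r := l + wu) ?_) (by omega)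
      rw [fn_bc_smul, bc_zm]
      exact fil_smul (Fil.mono _ (zm_mem a) (h a (mem_filter.1 ha).2)) _
  rw [← prod_congr rfl h4, ← E_sum _ _ fun a ha => xu_mem (by
    rw [Algebra.smul_def]
    exact Ideal.mul_mem_left _ _ (Ideal.pow_le_pow_right (h3 a ha) (zm_mem_pow a))), ← xu_sum,
    ← e, Fil.mem_comap, map_sub, map_sub, map_one] at h5
  exact h5

/-- a basis form up to sign -/
def Sq (S : Finset V) (ω : Om p (Au p) V) : Prop := ∃ ε : ℤ, ε * ε = 1 ∧ ω = ε • Om.e S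

theorem Sq.mul {S S' : Finset V} {ω ω' : Om p (Au p) V} (h : Sq S ω) (h' : Sq S' ω')
    (hd : Disjoint S S') : Sq (S ∪ S') (ω * ω') := by
  obtain ⟨ε, h1, rfl⟩ := h
  obtain ⟨ε', h1', rfl⟩ := h'
  refine ⟨ε * ε' * sg S S', ?_, by rw [smul_mul_smul_comm, Om.e_mul, smul_smul]⟩
  linear_combination (ε' * ε' * (sg S S' * sg S S')) * h1 + (sg S S' * sg S S') * h1' +
    sg_mul_self hd

theorem sq_rn (f : s → V) {S : Finset s} (hf : Set.InjOn f S) :
    Sq (S.image f) (PB (p := p) (rn f) (Om.e S)) :=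
  Om.pb_e_of_z _ f (fun i _ => by simp) hf

theorem PB_rn_mu (f : s → V) (x : Ix s) : PB (p := p) (rn f) (mu x) =
    ((T x.1 : Au p) • ∏ i, (z (f i) : O p (Au p) V) ^ x.2.1 i) • PB (rn f) (Om.e x.2.2) := by
  rw [mu, Om.mon, map_smul, PB_smul, smul_assoc]
  simp [zm]

theorem cu_top (j : ℤ) (f : O p (Au p) V) :
    cu (j, Om.top p V, univ) (f • Om.e univ) = (cf (Om.top p V) f).coeff j := by
  rw [cu_apply, Om.co_apply, map_smul, Om.cE_e]
  simp

theorem coeff_T_mul (m j : ℤ) (X : Au p) : (T m * X).coeff j = X.coeff (j - m) := by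
  induction X using LaurentPolynomial.induction_on' with
  | add a b ha hb =>
    rw [mul_add, AddMonoidAlgebra.coeff_add, AddMonoidAlgebra.coeff_add, Finsupp.add_apply,
      Finsupp.add_apply, ha, hb]
  | C_mul_T n a =>
    rw [mul_left_comm, ← T_add, gc_coeff, gc_coeff]
    exact if_congr (by omega) rfl rfl

end Exp

variable {Γ : Type} [AddCommGroup Γ] {δ : Γ} {s : Fin 3 → Type}
  [∀ i, Fintype (s i)] [∀ i, DecidableEq (s i)] {w : ∀ i, Wall p Γ δ (s i)} {t : Fin 3 → Bool}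
  {V : Type} [Fintype V] [DecidableEq V] {N La : ℕ} {v : VxG w t N La V}

theorem sum_bi {M : Type*} [AddCommMonoid M] (g : (Σ i, s i) → M) :
    ∑ b : Bi w t, g b.1 =
      ∑ i, ∑ x, if t i = false ∧ (w i).kd x = none then g ⟨i, x⟩ else 0 := by
  rw [sum_sigma', ← sum_filter (fun q : Σ i, s i => t q.1 = false ∧ (w q.1).kd q.2 = none) g]
  exact (sum_subtype _ (by simp) g).symm

/-- the exponents of the product of the leading monomials -/
def Su.a0 (U : Su v) (al : ∀ i, s i) (x : V) : ℕ :=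
  if (U.pr x).2 = false then
    ((w (U.pr x).1.1).ld (t (U.pr x).1.1) (al (U.pr x).1.1)).2.1 (U.pr x).1.2 else 0

theorem ld_ne {i : Fin 3} {al x : s i} (hal : (w i).kd al = none)
    (h : ((w i).ld (t i) al).2.1 x ≠ 0) : (w i).kd x ≠ some (!t i) := by
  by_cases h1 : x = al
  · rw [h1, hal]; simp
  · refine ne_of_nr (by_contra fun h2 => h ?_)
    simp [Wall.ld, h1, h2]

theorem Su.prod_lead (U : Su v) {al : ∀ i, s i} (hal : ∀ i, (w i).kd (al i) = none) :
    ∏ i, ∏ x, (z (v.em (⟨i, x⟩, false)) : O p (Au p) V) ^ ((w i).ld (t i) (al i)).2.1 x =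
      zm (U.a0 al) := by
  classical
  rw [prod_sigma', zm, ← prod_filter_of_ne (p := fun q : Σ i, s i => Ok w t (q, false))
    fun q _ h => ok_ne (ld_ne (hal q.1) fun h0 => h (by rw [h0, pow_zero]))]
  refine prod_of_injOn (fun q => v.em (q, false)) (fun q hq q' hq' h => ?_) (fun _ _ => by simp)
    (fun x _ hx => ?_) fun q hq => ?_
  · exact congrArg Prod.fst (v.inj (mem_filter.1 hq).2 (mem_filter.1 hq').2 h)
  · rw [Su.a0, if_neg, pow_zero]
    intro h
    refine hx ⟨(U.pr x).1, ?_, ?_⟩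
    · simp only [coe_filter, Set.mem_ofPred_eq, mem_sigma, mem_univ, true_and]
      rw [← h]; exact U.ok x
    · simp only; rw [← h]; exact U.em_pr x
  · rw [Su.a0, U.pr_em (mem_filter.1 hq).2, if_pos rfl]

theorem Su.sq_lead (U : Su v) :
    Sq univ (PB (p := p) (rn fun x => v.em (⟨0, x⟩, false)) (Om.e ((w 0).nr (t 0))) *
      PB (rn fun x => v.em (⟨1, x⟩, false)) (Om.e ((w 1).nr (t 1))) *
      PB (rn fun x => v.em (⟨2, x⟩, false)) (Om.e ((w 2).nr (t 2))) *
      PB (rn fun q : Xi w t => v.em q.1) (Om.e univ)) := by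
  classical
  have h1 : ∀ i, Sq (((w i).nr (t i)).image fun x => v.em (⟨i, x⟩, false))
      (PB (p := p) (rn fun x => v.em (⟨i, x⟩, false)) (Om.e ((w i).nr (t i)))) := fun i =>
    sq_rn _ fun x hx y hy h => by
      simpa using v.inj (ok_ne (ne_of_nr hx)) (ok_ne (ne_of_nr hy)) h
  have h2 := sq_rn (p := p) (fun q : Xi w t => v.em q.1) (S := univ) fun q _ q' _ h =>
    Subtype.ext (v.inj (ok_xi q.2) (ok_xi q'.2) h)
  have m1 : ∀ i x, x ∈ (((w i).nr (t i)).image fun x => v.em (⟨i, x⟩, false)) ↔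
      (U.pr x).1.1 = i ∧ ¬ xi w t (U.pr x) := fun i x => by
    rw [mem_image]
    constructor
    · rintro ⟨y, hy, rfl⟩
      rw [U.pr_em (ok_ne (ne_of_nr hy))]
      exact ⟨rfl, not_xi hy _⟩
    · rintro ⟨rfl, h⟩
      obtain ⟨h3, h4⟩ := (ok_cases (U.ok x)).resolve_left h
      refine ⟨_, h4, ?_⟩
      rw [← h3]; exact U.em_pr x
  have m2 : ∀ x, x ∈ (univ.image fun q : Xi w t => v.em q.1) ↔ xi w t (U.pr x) := fun x => by
    rw [mem_image]
    constructor
    · rintro ⟨q, -, rfl⟩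
      rw [U.pr_em (ok_xi q.2)]
      exact q.2
    · exact fun h => ⟨⟨_, h⟩, mem_univ _, U.em_pr x⟩
  have := (((h1 0).mul (h1 1) ?_).mul (h1 2) ?_).mul h2 ?_
  · convert this using 1
    ext x
    simp only [mem_union, m1, m2, mem_univ, true_iff]
    generalize (U.pr x).1.1 = i
    fin_cases i <;> simp [em']
  all_goals
    rw [disjoint_left]
    intro x
    simp only [mem_union, m1, m2]
    generalize (U.pr x).1.1 = i
    fin_cases i <;> simp

end N255.Vx
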