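import Crest.Agent.N255.Vx.In
import Crest.Agent.N255.Core.Gen

/-!
# Row 255, vertex count (helper7): weights on one wall
-/

set_option autoImplicit false
set_option linter.unusedSectionVars false

namespace N255.Vx

open Finset N255.Dr N255.Dr.O N255.Core LaurentPolynomial

variable {p : ℕ} [Fact p.Prime] {s : Type} [Fintype s] [DecidableEq s] {Γ : Type} [AddCommGroup Γ]
  {δ : Γ}

/-- indicator of the far variables -/
def fi (w : Wall p Γ δ s) (b : Bool) (i : s) : ℤ := if w.kd i = some (!b) then 1 else 0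

/-- pure weight, raised by one on the far variables -/
def fq (w : Wall p Γ δ s) (N : ℕ) (b : Bool) (i : s) : ℤ := N + w.F i + fi w b i

/-- the exponent weight of `y` on the `L` side -/
def jq (w : Wall p Γ δ s) (b : Bool) (i : s) : ℤ := if b = false ∧ w.kd i = none then 1 else 0

/-- twice the main weight plus the second weight -/
def vq (w : Wall p Γ δ s) (N La : ℕ) (b : Bool) (i : s) : ℤ :=
  if w.kd i = none then 2 * La + jq w b i else 2 * fq w N b i

variable {w : Wall p Γ δ s} {N La : ℕ} {b : Bool} {al : s} {x : Ix s}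

theorem mem_nr {i : s} : i ∈ w.nr b ↔ w.kd i = some b ∨ (b = true ∧ w.kd i = none) := by
  simp [Wall.nr]

theorem ne_of_nr {i : s} (h : i ∈ w.nr b) : w.kd i ≠ some (!b) := by
  rcases mem_nr.1 h with h | h
  · rw [h]; cases b <;> simp
  · rw [h.2]; simp

theorem fi_nonneg (i : s) : 0 ≤ fi w b i := by unfold fi; split_ifs <;> simp

theorem wt_fi_nonneg (x : Ix s) : 0 ≤ wt 0 (fi w b) (fi w b) x := by
  have h1 := sum_nonneg (s := univ) fun i _ =>
    mul_nonneg (by omega : (0 : ℤ) ≤ x.2.1 i) (fi_nonneg (w := w) (b := b) i)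
  have h2 := sum_nonneg (s := x.2.2) fun i _ => fi_nonneg (w := w) (b := b) i
  unfold wt; omega

theorem wt_fi_pos (h : ¬ w.NoFar b x) : 1 ≤ wt 0 (fi w b) (fi w b) x := by
  simp only [Wall.NoFar, not_forall] at h
  obtain ⟨i, hi, h⟩ := h
  have e : fi w b i = 1 := if_pos hi
  have h1 := single_le_sum (f := fun i => (x.2.1 i : ℤ) * fi w b i) (fun i _ =>
    mul_nonneg (by omega) (fi_nonneg i)) (mem_univ i)
  have h2 := sum_nonneg (s := x.2.2) fun i _ => fi_nonneg (w := w) (b := b) i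
  simp only [e, mul_one] at h1
  unfold wt
  by_cases h3 : x.2.1 i = 0
  · have h4 : i ∈ x.2.2 := by tauto
    have := single_le_sum (f := fi w b) (fun i _ => fi_nonneg i) h4
    omega
  · omega

theorem wt_fq (x : Ix s) :
    wt 0 (fq w N b) (fq w N b) x = w.wF N x + wt 0 (fi w b) (fi w b) x := by
  simp only [Wall.wF, wt, fq, mul_add, sum_add_distrib]
  ring

theorem wt_jq (x : Ix s) : wt 1 (jq w b) 0 x = w.jw b x := by
  simp only [Wall.jw, wt, jq, one_mul, Pi.zero_apply, sum_const_zero, add_zero, mul_ite, mul_one,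
    mul_zero]

theorem wt_vq (x : Ix s) : wt (4 * La + 1) (vq w N La b) (fun i => 2 * fq w N b i) x =
    2 * w.wW N La x + w.jw b x + 2 * wt 0 (fi w b) (fi w b) x := by
  rw [← wt_jq]
  have : ∀ i, vq w N La b i = 2 * (if w.kd i = none then (La : ℤ) else N + w.F i) + jq w b i +
      2 * fi w b i := fun i => by
    unfold vq fq jq fi
    by_cases h : w.kd i = none
    · simp [h]
    · simp only [h, and_false, if_false]; ring
  simp only [Wall.wW, wt, this, fq, mul_add, sum_add_distrib, mul_sum, Pi.zero_apply,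
    sum_const_zero, mul_left_comm _ (2 : ℤ)]
  ring

theorem sum_ld (hal : w.kd al = none) (g : s → ℤ) : ∑ i, ((w.ld b al).2.1 i : ℤ) * g i =
    ∑ i ∈ w.nr b, ((p - 1 : ℕ) : ℤ) * g i + if b = true then -g al else g al := by
  have hp := (Fact.out : p.Prime).two_le
  have : ∀ i, ((w.ld b al).2.1 i : ℤ) * g i = (if i ∈ w.nr b then ((p - 1 : ℕ) : ℤ) * g i else 0) +
      if i = al then (if b = true then -g al else g al) else 0 := fun i => by
    unfold Wall.ld
    by_cases h : i = al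
    · subst h
      cases b
      · simp [mem_nr, hal]
      · simp only [mem_nr, hal, if_true, and_self, or_true]
        rw [Nat.cast_sub hp, Nat.cast_sub (by omega)]
        push_cast; ring
    · simp only [h, if_false, add_zero]
      split_ifs <;> simp
  simp only [this, sum_add_distrib, sum_ite_mem, univ_inter, sum_ite_eq', mem_univ, if_true]

theorem sum_h0 (j : ℤ) (g : s → ℤ) : ∑ i, ((w.h0 b j).2.1 i : ℤ) * g i =
    ∑ i ∈ w.nr b, ((p - 1 : ℕ) : ℤ) * g i := by
  have : ∀ i, ((w.h0 b j).2.1 i : ℤ) * g i =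
      if i ∈ w.nr b then ((p - 1 : ℕ) : ℤ) * g i else 0 := fun i => by
    unfold Wall.h0
    split_ifs with h <;> simp [h]
  simp only [this, sum_ite_mem, univ_inter]

theorem fi_nr {i : s} (h : i ∈ w.nr b) : fi w b i = 0 := if_neg (ne_of_nr h)

theorem fi_ld (hal : w.kd al = none) : wt 0 (fi w b) (fi w b) (w.ld b al) = 0 := by
  have : fi w b al = 0 := if_neg (by rw [hal]; simp)
  rw [wt, sum_ld hal, this, sum_eq_zero fun i hi => by rw [fi_nr hi, mul_zero],
    sum_eq_zero (s := (w.ld b al).2.2) fun i hi => fi_nr (w := w) (b := b) hi]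
  simp

theorem fi_h0 (j : ℤ) : wt 0 (fi w b) (fi w b) (w.h0 b j) = 0 := by
  rw [wt, sum_h0, sum_eq_zero fun i hi => by rw [fi_nr hi, mul_zero],
    sum_eq_zero (s := (w.h0 b j).2.2) fun i hi => fi_nr (w := w) (b := b) hi]
  simp

theorem jq_nr {i : s} (h : i ∈ w.nr b) : jq w b i = 0 := by
  refine if_neg ?_
  rintro ⟨rfl, h2⟩
  simp [mem_nr, h2] at h

theorem ld_j (hal : w.kd al = none) : w.jw b (w.ld b al) = 0 := by
  rw [← wt_jq, wt, sum_ld hal, sum_eq_zero fun i hi => by rw [jq_nr hi, mul_zero]]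
  cases b <;> simp [jq, hal, Wall.ld]

theorem ld_w (hal : w.kd al = none) :
    wt (4 * La + 1) (vq w N La b) (fun i => 2 * fq w N b i) (w.ld b al) =
      ∑ i ∈ w.nr b, (((p - 1 : ℕ) : ℤ) * vq w N La b i + 2 * fq w N b i) - 2 * La := by
  rw [wt, sum_ld hal, sum_add_distrib]
  cases b <;> simp [vq, jq, hal, Wall.ld] <;> ring

theorem h0_w (j : ℤ) : wt 0 (fq w N b) (fq w N b) (w.h0 b j) =
    ∑ i ∈ w.nr b, (((p - 1 : ℕ) : ℤ) * fq w N b i + fq w N b i) := by
  rw [wt, sum_h0, sum_add_distrib]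
  simp [Wall.h0]

theorem lt_j (hG : w.Gd N La b al) (hb : ∀ i, x.2.1 i < p) (hx : w.Lt N La b al x) :
    0 ≤ wt 1 (jq w b) 0 x := by
  rw [wt_jq]
  refine hG.qz x hb ?_
  unfold Wall.Lt at hx
  split_ifs at hx
  exacts [hx.1, hx.le]

theorem lt_w (hG : w.Gd N La b al) (hal : w.kd al = none) (hb : ∀ i, x.2.1 i < p)
    (hx : w.Lt N La b al x) :
    wt (4 * La + 1) (vq w N La b) (fun i => 2 * fq w N b i) (w.ld b al) + 1 ≤
      wt (4 * La + 1) (vq w N La b) (fun i => 2 * fq w N b i) x := by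
  have h1 := lt_j hG hb hx
  have h2 := wt_fi_nonneg (w := w) (b := b) x
  rw [wt_jq] at h1
  rw [wt_vq, wt_vq, ld_j hal, fi_ld hal]
  unfold Wall.Lt at hx
  split_ifs at hx with hb'
  · rcases hx.1.lt_or_eq with h | h
    · omega
    by_cases h3 : w.NoFar b x
    · rcases hG.gen hb' x hb h3 h.symm with ⟨be, h4, h5⟩ | h4
      · exact absurd h5 (hx.2 be h4)
      · have : w.jw b x = x.1 := by simp [Wall.jw, hb']
        omega
    · have := wt_fi_pos h3
      omega
  · omega

theorem hm_lt (hp : ∀ i, 0 < N + w.F i) (hb : ∀ i, x.2.1 i < p) (hx : w.Hm N b x) :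
    (x = w.h0 b x.1 ∧ 0 ≤ x.1) ∨
      wt 0 (fq w N b) (fq w N b) (w.h0 b 0) + 1 ≤ wt 0 (fq w N b) (fq w N b) x := by
  refine hx.imp id fun ⟨hne, hx⟩ => ?_
  have h2 := wt_fi_nonneg (w := w) (b := b) x
  rw [wt_fq, wt_fq, fi_h0]
  split_ifs at hx with hb'
  swap
  · omega
  by_cases h3 : w.NoFar b x
  swap
  · have := wt_fi_pos h3
    omega
  exfalso
  subst hb'
  have hn : ∀ i, i ∉ w.nr true → w.kd i = some (!true) := fun i hi => by
    rw [mem_nr] at hi
    rcases hk : w.kd i with _ | _ | _ <;> simp_all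
  have hp' : ∀ i, (0 : ℤ) < N + w.F i := fun i => by have := hp i; omega
  have ha : ∀ i, x.2.1 i ≤ (w.h0 true 0).2.1 i := fun i => by
    unfold Wall.h0
    by_cases hi : i ∈ w.nr true
    · have := hb i
      simp only [hi, if_true]; omega
    · rw [(h3 i (hn i hi)).1]; exact Nat.zero_le _
  have hS : x.2.2 ⊆ w.nr true := fun i hi => by_contra fun h => (h3 i (hn i h)).2 hi
  have e1 : ∀ i ∈ univ, (x.2.1 i : ℤ) * (N + w.F i) ≤ ((w.h0 true 0).2.1 i : ℤ) * (N + w.F i) :=
    fun i _ => mul_le_mul_of_nonneg_right (by exact_mod_cast ha i) (hp' i).le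
  have e2 := sum_le_sum e1
  have e3 := sum_le_sum_of_subset_of_nonneg (f := fun i => (N + w.F i : ℤ)) hS
    fun i _ _ => (hp' i).le
  simp only [Wall.wF, wt, zero_mul, zero_add] at hx
  have e4 : (w.h0 true 0).2.2 = w.nr true := rfl
  rw [e4] at hx
  have e5 := (sum_eq_sum_iff_of_le e1).1 (by omega)
  have e6 : x.2.2 = w.nr true := by
    by_contra hne'
    obtain ⟨i, hi, hi'⟩ := exists_of_ssubset (hS.ssubset_of_ne hne')
    have := sum_lt_sum_of_subset (f := fun i => (N + w.F i : ℤ)) hS hi hi' (hp' i)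
      fun i _ _ => (hp' i).le
    omega
  refine hne (Prod.ext rfl (Prod.ext (funext fun i => ?_) e6))
  exact_mod_cast mul_right_cancel₀ (hp' i).ne' (e5 i (mem_univ i))

end N255.Vx
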